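import Mathlib
import Crest.Agent.X262.Mod79.Neg
import Crest.Agent.X277.Jet.Dvr
import Crest.Agent.X262.Wr72.Val
import Crest.Agent.X262.Loc95.Prj
import Crest.Agent.X277.Jet.Gen
import Crest.Agent.X277.Gj.Tay
import Crest.Agent.X277.Gj.Gap
import Crest.Agent.X277.Slope.Reg
import Crest.Agent.X262.Loc95.Kc

-- ▼ part X262/R1/Lh
section

/-!
# Row 262, R1 (helper3): the rule of l'Hôpital at a discrete valuation

`δ` is a derivation which lowers the order at `w` like `θ • t ∂/∂t`; `nab δ u r j` is the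
derivation `u ^ (-1/r) • δ` acting on `u ^ (-j/r) • K`.
* `nab_mem` : it preserves integrality at a valuation where `u` generates the `r`-th power of
  the canonical class of `δ`;
* `lhop`    : if `u ^ (-1/r) • δ` lowers the order at `w`, the `r`-th power of every unit is
  congruent to a quotient of elements of the ring `R`.
-/

set_option autoImplicit false

noncomputable section

namespace Crest.Agent.X262.R1

open WithZero

variable {E K : Type*} [Field E] [Field K] [Algebra E K]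

/-- the derivation `u ^ (-1/r) • δ` on `u ^ (-j/r) • K` -/
def nab (δ : Derivation E K K) (u : K) (r j : ℕ) (h : K) : K :=
  δ h - (j / r : K) * (δ u / u) * h

section gen

variable {Γ : Type*} [LinearOrderedCommGroupWithZero Γ] {v : Valuation K Γ}

theorem v_pow_sub_one {t : K} (h : v (t - 1) < 1) (r : ℕ) : v (t ^ r - 1) < 1 := by
  have h1 : v t = 1 := by
    have h2 := v.map_one_add_of_lt h
    rwa [add_sub_cancel] at h2
  induction r with
  | zero => simp
  | succ r ih =>
    rw [show t ^ (r + 1) - 1 = (t ^ r - 1) * t + (t - 1) by ring]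
    exact v.map_add_lt (by rwa [map_mul, h1, mul_one]) h

theorem v_nat_div [CharZero K] (hq : ∀ n : ℕ, n ≠ 0 → v n = 1) (j r : ℕ) :
    v (j / r : K) ≤ 1 := by
  rcases eq_or_ne j 0 with rfl | hj
  · simp
  rcases eq_or_ne r 0 with rfl | hr
  · simp
  rw [map_div₀, hq j hj, hq r hr, div_one]

theorem v_int (hq : ∀ n : ℕ, n ≠ 0 → v n = 1) {n : ℤ} (hn : n ≠ 0) : v n = 1 := by
  obtain ⟨m, rfl | rfl⟩ := n.eq_nat_or_neg
  · simpa using hq m (by simpa using hn)
  · simpa using hq m (by simpa using hn)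

/-- integrality is preserved where `u` generates -/
theorem nab_mem [CharZero K] (hq : ∀ n : ℕ, n ≠ 0 → v n = 1) {δ : Derivation E K K} {ρ u : K}
    {r : ℕ} (hr : 0 < r) (hρ : ρ ≠ 0) (hδ : ∀ x, v x ≤ 1 → v (δ x) ≤ v ρ) (hu : v u = v ρ ^ r)
    {j : ℕ} {h : K} (hh : v h ≤ v ρ ^ j) : v (nab δ u r j h) ≤ v ρ ^ (j + 1) := by
  have h0 : v ρ ≠ 0 := by simpa using hρ
  have hr' : (r : K) ≠ 0 := by exact_mod_cast hr.ne'
  obtain ⟨b, rfl⟩ : ∃ b, h = ρ ^ j * b := ⟨h / ρ ^ j, by field_simp⟩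
  obtain ⟨ε, rfl⟩ : ∃ ε, u = ρ ^ r * ε := ⟨u / ρ ^ r, by field_simp⟩
  rw [map_mul, map_pow] at hh hu
  have hb : v b ≤ 1 := (mul_le_iff_le_one_right (pow_pos (zero_lt_iff.2 h0) j)).1 hh
  have hε : v ε = 1 := (mul_eq_left₀ (pow_ne_zero _ h0)).1 hu
  have hε0 : ε ≠ 0 := by
    rintro rfl
    simp at hε
  have e : nab δ (ρ ^ r * ε) r j (ρ ^ j * b) = ρ ^ j * (δ b - (j / r : K) * (δ ε / ε) * b) := by
    have p : ∀ n : ℕ, δ (ρ ^ n) = n * ρ ^ n * (δ ρ / ρ) := fun n => by
      rw [Derivation.leibniz_pow]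
      rcases n with _ | n
      · simp
      · simp only [Nat.add_sub_cancel, smul_eq_mul, nsmul_eq_mul]
        field_simp
        ring
    rw [nab, Derivation.leibniz, Derivation.leibniz, p, p]
    simp only [smul_eq_mul]
    field_simp
    ring
  rw [e, map_mul, map_pow, pow_succ]
  refine mul_le_mul_right (v.map_sub_le (hδ b hb) ?_) _
  rw [map_mul, map_mul, map_div₀ v (δ ε), hε, div_one]
  calc _ ≤ 1 * v ρ * 1 := mul_le_mul' (mul_le_mul' (v_nat_div hq j r) (hδ ε hε.le)) hb
    _ = _ := by rw [one_mul, mul_one]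

end gen

variable [CharZero K] {w : Valuation K ℤᵐ⁰} {δ : Derivation E K K} {θ u : K} {r : ℕ}

theorem nab_eq (hq : ∀ n : ℕ, n ≠ 0 → w n = 1) (hr : 0 < r) (hθ : θ ≠ 0) (hu : u ≠ 0)
    (hP : ∀ x, x ≠ 0 → w (δ x / x + (log (w x) : ℤ) * θ) < w θ) (j : ℕ) {a : K} (ha : a ≠ 0) :
    ∃ ε, w ε < 1 ∧
      nab δ u r j a = a * θ * (((j * log (w u) - r * log (w a) : ℤ) : K) / r + ε) := by
  have hr' : (r : K) ≠ 0 := by exact_mod_cast hr.ne'
  have h0 : 0 < w θ := zero_lt_iff.2 (by simpa using hθ)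
  refine ⟨((δ a / a + (log (w a) : ℤ) * θ) - (j / r : K) * (δ u / u + (log (w u) : ℤ) * θ)) / θ,
    ?_, ?_⟩
  · rw [map_div₀, div_lt_one₀ h0]
    refine w.map_sub_lt (hP a ha) ?_
    rw [map_mul]
    exact (mul_le_of_le_one_left' (v_nat_div hq j r)).trans_lt (hP u hu)
  · rw [nab]
    push_cast
    field_simp
    ring

/-- **l'Hôpital** -/
theorem lhop (hq : ∀ n : ℕ, n ≠ 0 → w n = 1) (hr : 0 < r) (hθ : θ ≠ 0) (hu : u ≠ 0)
    (hP : ∀ x, x ≠ 0 → w (δ x / x + (log (w x) : ℤ) * θ) < w θ) (hκ : w u < w θ ^ r)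
    {A : ℕ → Set K} (hA : ∀ j, ∀ h ∈ A j, nab δ u r j h ∈ A (j + 1)) {R : Set K}
    (hR : ∀ j, ∀ h ∈ A j, h ^ r / u ^ j ∈ R) (hw : ∀ x ∈ R, w x ≤ 1) (n : ℕ) :
    ∀ (j : ℕ) (a a' : K), a ∈ A j → a' ∈ A j → a' ≠ 0 → w a = w a' →
      j * log (w u) - r * log (w a') ≤ n →
      ∃ p ∈ R, ∃ p' ∈ R, w p' = 1 ∧ w ((a / a') ^ r - p / p') < 1 := by
  have hu0 : w u ≠ 0 := by simpa using hu
  have hθ0 : w θ ≠ 0 := by simpa using hθ
  have key : ∀ (j : ℕ) (a : K), a ≠ 0 →
      w (a ^ r / u ^ j) = exp (-(j * log (w u) - r * log (w a))) := fun j a ha => by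
    have ha0 : w a ≠ 0 := by simpa using ha
    rw [map_div₀, map_pow, map_pow, neg_sub, exp_sub, ← nsmul_eq_mul, ← nsmul_eq_mul, exp_nsmul,
      exp_nsmul, exp_log ha0, exp_log hu0]
  have hlt : log (w u) < r * log (w θ) := by
    rw [← exp_lt_exp, ← nsmul_eq_mul, exp_nsmul, exp_log hu0, exp_log hθ0]
    exact hκ
  induction n with
  | zero =>
    intro j a a' ha ha' h0 _ hn
    have h1 := hw _ (hR j a' ha')
    rw [key j a' h0, ← exp_zero, exp_le_exp] at h1
    refine ⟨_, hR j a ha, _, hR j a' ha', ?_, ?_⟩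
    · rw [key j a' h0, ← exp_zero, exp_inj]
      omega
    · rw [div_div_div_cancel_right₀ (pow_ne_zero _ hu), div_pow, sub_self, map_zero]
      exact zero_lt_one
  | succ n ih =>
    intro j a a' ha ha' h0 hw' hn
    rcases le_or_gt (j * log (w u) - r * log (w a')) n with h | h
    · exact ih j a a' ha ha' h0 hw' h
    have ha0 : a ≠ 0 := by
      rintro rfl
      exact h0 (by simpa using hw'.symm)
    obtain ⟨ε, hε, e⟩ := nab_eq hq hr hθ hu hP j ha0
    obtain ⟨ε', hε', e'⟩ := nab_eq hq hr hθ hu hP j h0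
    rw [hw'] at e
    set c : K := ((j * log (w u) - r * log (w a') : ℤ) : K) / r with hc
    have h1 : w c = 1 := by rw [hc, map_div₀, v_int hq (by omega), hq r hr.ne', div_one]
    have h2 : w (c + ε) = 1 := by rw [w.map_add_eq_of_lt_left (by rwa [h1]), h1]
    have h3 : w (c + ε') = 1 := by rw [w.map_add_eq_of_lt_left (by rwa [h1]), h1]
    have h4 : c + ε' ≠ 0 := by
      intro h5
      simp [h5] at h3
    have ha'0 : w a' ≠ 0 := by simpa using h0
    obtain ⟨p, hp, p', hp', h5, h6⟩ := ih (j + 1) _ _ (hA j a ha) (hA j a' ha')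
      (by rw [e']; exact mul_ne_zero (mul_ne_zero h0 hθ) h4)
      (by rw [e, e', map_mul, map_mul, map_mul, map_mul, h2, h3, hw'])
      (by
        rw [e', map_mul, map_mul, h3, mul_one, log_mul ha'0 hθ0]
        push_cast at hn ⊢
        nlinarith)
    refine ⟨p, hp, p', hp', h5, ?_⟩
    have h7 : w ((c + ε) / (c + ε') - 1) < 1 := by
      rw [div_sub_one h4, map_div₀, h3, div_one, add_sub_add_left_eq_sub]
      exact w.map_sub_lt hε hε'
    have h8 : (a / a') ^ r - p / p' = ((nab δ u r j a / nab δ u r j a') ^ r - p / p') -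
        (a / a') ^ r * (((c + ε) / (c + ε')) ^ r - 1) := by
      rw [e, e', show a * θ * (c + ε) / (a' * θ * (c + ε')) = a / a' * ((c + ε) / (c + ε')) by
        field_simp, mul_pow]
      ring
    rw [h8]
    refine w.map_sub_lt h6 ?_
    rw [map_mul, map_pow, map_div₀, hw', div_self ha'0, one_pow, one_mul]
    exact v_pow_sub_one h7 r

end Crest.Agent.X262.R1
end
end

-- ▼ part X262/R1/Loc
section

/-!
# Row 262, R1 (helper3): the discrepancy of a foliation by curves at a transverse divisor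

* `mem_loc_of_prm` : Hartogs at the centre of a valuation;
* `KF H δ r a`     : `a` bounds `r` times the canonical class of the derivation `δ` on the model;
* `KF.prm_le`, `KF.exc_le` : the size of `a` at a divisor which is transverse to `δ`; one order is
  gained at exceptional divisors.
-/

set_option autoImplicit false
set_option linter.unusedSectionVars false

noncomputable section

namespace Crest.Agent.X262.R1

open Crest.Agent.X277 Crest.Agent.X277.BD Crest.Agent.X277.Pst Crest.Agent.X277.Neg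
  Crest.Agent.X262.Mod WithZero Polynomial

universe u

variable {E F : Type u} [Field E] [Field F] [Algebra E F] {H a : BD E F} {V : RZ E F}
  {δ : Derivation E F F} {r : ℕ} {π : F}

/-- `a` bounds `r` times the canonical class of `δ` at the primes of the model -/
def KF (H : BD E F) (δ : Derivation E F F) (r : ℕ) (a : BD E F) : Prop :=
  ∀ W, Prm H W → ∃ ρ : F, ρ ≠ 0 ∧ (∀ x ∈ W.1, W.v (δ x) ≤ W.v ρ) ∧ a.val W = W.v ρ ^ r

theorem KF.prm_le (h : KF H δ r a) (hV : Prm H V) (hπ : π ∈ V.1) : V.v (δ π) ^ r ≤ a.val V := by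
  obtain ⟨ρ, -, h1, h2⟩ := h V hV
  rw [h2]
  exact pow_le_pow_left' (h1 π hπ) r

variable [CharZero E] [Algebra.EssFiniteType E F]

theorem v_nat (V : RZ E F) (n : ℕ) (hn : n ≠ 0) : V.v n = 1 := by
  rw [← map_natCast (algebraMap E F)]
  exact V.v_alg (Nat.cast_ne_zero.2 hn)

/-- Hartogs at the centre of `V` -/
theorem mem_loc_of_prm (hH : IsMod H) {f : F} (h : ∀ W, Prm H W → Gz H V W → f ∈ W.1) :
    f ∈ loc H V := by
  have key : ∀ T : Set (RZ E F), T.Finite → (∀ W ∈ T, Prm H W ∧ ¬ Gz H V W) →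
      ∃ (m : ℕ) (g : F), g ∈ (m • H).Sec ∧ V.v g = (m • H).val V ∧
        ∀ W ∈ T, W.v (f * g) ≤ (m • H).val W := by
    intro T hT
    induction T, hT using Set.Finite.induction_on with
    | empty => exact fun _ => ⟨0, 1, by simpa using one_mem_Sec, by simp, by simp⟩
    | @insert W T _ _ ih =>
      intro h1
      obtain ⟨m, g, h2, h3, h4⟩ := ih fun U hU => h1 U (Set.mem_insert_of_mem _ hU)
      obtain ⟨h5, h6⟩ := h1 W (Set.mem_insert _ _)
      simp only [Gz, not_forall] at h6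
      obtain ⟨m', g', h7, h8, h9⟩ := h6
      have h10 : W.v g' < (m' • H).val W := (h7 W).lt_of_ne h9
      have h11 : 0 < W.v g' := RZ.pos (ne_of_val h8)
      obtain ⟨n, hn⟩ := Rgr.arch h5.dvs (W.v f) ((m' • H).val W / W.v g') ((one_lt_div₀ h11).2 h10)
      have e : (m + n * m') • H = m • H + n • m' • H := by rw [add_nsmul, mul_nsmul']
      refine ⟨m + n * m', g * g' ^ n, e ▸ mul_mem_Sec h2 (pow_mem_Sec h7 n), ?_, ?_⟩
      · rw [e, map_mul, map_pow, val_add, h3, h8, val_nsmul n]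
      rintro U (rfl | hU)
      · rw [div_pow, le_div_iff₀ (pow_pos h11 n)] at hn
        rw [e, val_add, val_nsmul n, mul_left_comm, map_mul, map_mul, map_pow]
        exact mul_le_mul' (h2 U) hn
      · rw [e, val_add, ← mul_assoc, map_mul]
        exact mul_le_mul' (h4 U hU) (pow_mem_Sec h7 n U)
  obtain ⟨m, g, h1, h2, h3⟩ := key _ (fin_not_mem hH.free hH.bir f)
    fun W hW => ⟨hW.1, fun h4 => hW.2 (h W hW.1 h4)⟩
  refine ⟨m, g, h1, h2, ((car_self hH.free).nsmul m).mem_Sec hH fun W hW => ?_⟩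
  by_cases h4 : f ∈ W.1
  · rw [map_mul]
    exact (mul_le_of_le_one_left' (RZ.le_one_iff.2 h4)).trans (h1 W)
  · exact h3 W ⟨hW, h4⟩

omit [CharZero E] [Algebra.EssFiniteType E F] in
theorem log_der {w : Valuation F ℤᵐ⁰} (hπ : w π = exp (-1))
    (hδ : ∀ x, w x ≤ 1 → w (δ x) ≤ w (δ π)) (h0 : δ π ≠ 0) (x : F) (hx : x ≠ 0) :
    w (δ x / x + (log (w x) : ℤ) * (δ π / π)) < w (δ π / π) := by
  have hπ0 : π ≠ 0 := by
    rintro rfl
    simp at h0
  have hx0 : w x ≠ 0 := by simpa using hx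
  set m := log (w x) with hm
  have h1 : w (x * π ^ m) = 1 := by
    rw [map_mul, map_zpow₀, hπ, ← exp_zsmul, ← exp_log hx0, ← exp_add, ← hm]
    simp
  have h2 : δ x / x + (m : F) * (δ π / π) = δ (x * π ^ m) / (x * π ^ m) := by
    rw [Derivation.leibniz, Derivation.leibniz_zpow, zpow_sub_one₀ hπ0]
    have := zpow_ne_zero m hπ0
    simp only [smul_eq_mul, zsmul_eq_mul]
    field_simp
    ring
  rw [h2, map_div₀, h1, div_one, map_div₀, hπ]
  refine (hδ _ h1.le).trans_lt ?_
  rw [lt_div_iff₀ exp_pos]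
  refine mul_lt_of_lt_one_right (zero_lt_iff.2 (by simpa using h0)) ?_
  rw [← exp_zero, exp_lt_exp]
  omega

/-- **one order is gained at a transverse exceptional divisor** -/
theorem KF.exc_le' (h : KF H δ r a) (hH : IsMod H) (ha : Car H a) (hr : 0 < r) (hV : Dvs V)
    (hn : ¬ Prm H V) {w : Valuation F ℤᵐ⁰} (N : IsNv V w) (hπ : w π = exp (-1))
    (hδ : ∀ x ∈ V.1, V.v (δ x) ≤ V.v (δ π)) (h0 : δ π ≠ 0) : V.v (δ π / π) ^ r ≤ a.val V := by
  have : CharZero F := Slope.cz_up E F
  obtain ⟨u, hu, hu1⟩ := ha.exists_gen hH.free V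
  by_contra hc
  rw [not_le, ← hu1 V Gz.rfl, ← map_pow, ← N.lt_iff, map_pow] at hc
  have hπ0 : π ≠ 0 := by
    rintro rfl
    simp at h0
  let A : ℕ → Set F := fun j => {x | ∀ W, Prm H W → Gz H V W → W.v x ^ r ≤ W.v u ^ j}
  have hA : ∀ j, ∀ x ∈ A j, nab δ u r j x ∈ A (j + 1) := fun j x hx W h1 h2 => by
    obtain ⟨ρ, h3, h4, h5⟩ := h W h1
    have h6 : W.v u = W.v ρ ^ r := (hu1 W h2).trans h5
    have h7 := hx W h1 h2
    rw [h6, ← pow_mul, mul_comm, pow_mul] at h7 ⊢
    exact pow_le_pow_left' (nab_mem (v_nat W) hr h3 (fun y hy => h4 y (RZ.le_one_iff.1 hy)) h6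
      ((pow_le_pow_iff_left₀ zero_le zero_le hr.ne').1 h7)) r
  have hR : ∀ j, ∀ x ∈ A j, x ^ r / u ^ j ∈ (loc H V : Set F) := fun j x hx =>
    mem_loc_of_prm hH fun W h1 h2 => by
      rw [← RZ.le_one_iff, map_div₀, map_pow, map_pow, div_le_one₀ (pow_pos (RZ.pos hu) j)]
      exact hx W h1 h2
  have key := lhop (w := w) (fun n hn => N.eq_one.2 (v_nat V n hn)) hr (div_ne_zero h0 hπ0) hu
    (log_der hπ (fun x hx => (N.le_iff _ _).2 (hδ x (N.le_one.1 hx))) h0) hc hA hR
    fun x hx => N.le_one.2 (mem_of_loc hx)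
  have h1 : ∀ x ∈ loc H V, x ∈ A 0 := fun x hx W _ h2 => by
    rw [pow_zero]
    exact pow_le_one₀ zero_le (RZ.le_one_iff.2 ((gz_iff hH.free).1 h2 x hx))
  refine hn (prm_iff.2 ⟨hV.ne_top, (dvs_iff.1 hV).2.trans ?_⟩)
  refine add_le_add_left (rk_le_of_sub fun z _ => ?_) 1
  by_cases hz : V.v z = 1
  swap
  · exact mem_cl_of_ne hz
  obtain ⟨m, s, h2, h3, h4⟩ := hH.bir z
  obtain ⟨g, h5, h6⟩ := (hH.free.nsmul m).exists_gen V
  have hg := ne_of_val h6
  obtain ⟨p, hp, p', hp', h7, h8⟩ := key _ 0 _ _ (h1 _ (div_mem_loc h4 h5 h6))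
    (h1 _ (div_mem_loc h2 h5 h6)) (div_ne_zero h3 hg)
    (by rw [map_div₀, map_div₀, map_mul, N.eq_one.2 hz, one_mul]) (Int.self_le_toNat _)
  rw [div_div_div_cancel_right₀ hg, mul_div_cancel_right₀ _ h3, N.lt_one] at h8
  have h9 : p / p' ∈ clS V (loc H V) := div_mem_clS (mem_clS_of_mem (mem_of_loc hp) hp)
    (mem_clS_of_mem (mem_of_loc hp') hp') (N.eq_one.1 h7)
  refine mem_cl_of_poly (p := X ^ r - C (p / p')) (fun i => ?_) ⟨r, ?_⟩ (by simpa using h8)
  · rw [coeff_sub, coeff_X_pow, coeff_C]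
    refine sub_mem ?_ ?_ <;> split_ifs
    exacts [one_mem _, zero_mem _, h9, zero_mem _]
  · rw [coeff_sub, coeff_X_pow, coeff_C, if_pos rfl, if_neg hr.ne', sub_zero, map_one]


end Crest.Agent.X262.R1
end
end

-- ▼ part X262/Vol77/Defs
section

/-!
# Row 262, Vol77 (helper77), part 0: definitions for the algebraic volume bound

* `Deg H a d`  : at the primes of the `H`-model `a` is `ℚ`-linearly equivalent to `d H`;
* `In H r`     : canonical model of Picard number one with `H ∼ - r K`;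
* `HilStmt`    : uniform lower bound for the Hilbert function;
* `BetaStmt`   : the classes of a fibration in curves;
* `VolOut`, `Vol n` : the output.
-/

set_option autoImplicit false
set_option linter.unusedSectionVars false

noncomputable section

namespace Crest.Agent.X262.Vol77

open Module Crest.Agent.X277 Crest.Agent.X277.BD Crest.Agent.X277.Pst Crest.Agent.X277.Jet
open Crest.Agent.X262.Mod Crest.Agent.X262.Wr72
open List (replicate)

section Defs

variable {k K : Type} [Field k] [Field K] [Algebra k K]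

/-- at the primes of the `H`-model `a` is `ℚ`-linearly equivalent to `d H` -/
def Deg (H a : BD k K) (d : ℚ) : Prop :=
  ∃ (m : ℕ) (c : ℤ) (f : K), 0 < m ∧ f ≠ 0 ∧ (c : ℚ) = m * d ∧ EqOn H (m • a) (c • H + pr k f)

/-- `H ∼ - r K` on the model and the singularities are canonical -/
def Can (H : BD k K) (r : ℕ) {ι : Type} [Fintype ι] [DecidableEq ι] (b : Basis ι K Ω[K⁄k]) :
    Prop :=
  ∃ h : K, h ≠ 0 ∧ ∀ V : RZ k K, Dvs V → ∀ g, Kv V.v b g →
    V.v h ≤ g ^ r * H.val V ∧ (Prm H V → V.v h = g ^ r * H.val V)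

/-- the hypotheses -/
structure In (H : BD k K) (r : ℕ) : Prop where
  mod : IsMod H
  reg : Gj.Reg k K
  pos : 0 < r
  can : ∃ (n : ℕ) (b : Basis (Fin n) K Ω[K⁄k]), Can H r b
  rho : ∀ a : BD k K, ∃ (m : ℕ) (c : ℤ) (f : K), 0 < m ∧ f ≠ 0 ∧
    EqOn H (m • a) (c • H + pr k f)

variable {H a b : BD k K} {d e : ℚ} {r : ℕ}

theorem kv_reindex {ι κ Γ : Type} [Fintype ι] [DecidableEq ι] [Fintype κ] [DecidableEq κ]
    [LinearOrderedCommGroupWithZero Γ] {v : Valuation K Γ} {b : Basis ι K Ω[K⁄k]} {g : Γ}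
    (h : Kv v b g) (e : ι ≃ κ) : Kv v (b.reindex e) g := by
  have h1 : ∀ z : κ → K, jb (b.reindex e) z = jb b (z ∘ e) := fun z => by
    unfold jb
    rw [Basis.det_reindex']
    rfl
  obtain ⟨z, hz, rfl⟩ := h.1
  refine ⟨⟨z ∘ e.symm, fun _ => hz _, ?_⟩, fun w hw => ?_⟩
  · rw [h1, Function.comp_assoc, Equiv.symm_comp_self, Function.comp_id]
  · rw [h1]
    exact h.2 _ fun _ => hw _

/-- the canonical hypothesis does not depend on the basis -/
theorem Can.change {ι κ : Type} [Fintype ι] [DecidableEq ι] [Fintype κ] [DecidableEq κ]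
    {b : Basis ι K Ω[K⁄k]} (h : Can H r b) (b' : Basis κ K Ω[K⁄k]) : Can H r b' := by
  obtain ⟨h, h0, h1⟩ := h
  let e : κ ≃ ι := b'.indexEquiv b
  have hu : b.det (b'.reindex e) ≠ 0 := (b.isUnit_det _).ne_zero
  refine ⟨h / b.det (b'.reindex e) ^ r, div_ne_zero h0 (pow_ne_zero _ hu), fun V hV g hg => ?_⟩
  obtain ⟨h2, h3⟩ := h1 V hV _ ((kv_reindex hg e).change b)
  have h4 : 0 < V.v (b.det (b'.reindex e)) ^ r := pow_pos (RZ.pos hu) _
  rw [mul_pow, mul_assoc] at h2 h3
  rw [map_div₀, map_pow, div_le_iff₀' h4, div_eq_iff h4.ne', mul_comm _ (_ ^ r)]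
  exact ⟨h2, h3⟩

theorem In.can' (h : In H r) {ι : Type} [Fintype ι] [DecidableEq ι] (b : Basis ι K Ω[K⁄k]) :
    Can H r b := by
  obtain ⟨_, _, h1⟩ := h.can
  exact h1.change b

theorem In.deg (h : In H r) (a : BD k K) : ∃ d, Deg H a d := by
  obtain ⟨m, c, f, h1, h2, h3⟩ := h.rho a
  exact ⟨c / m, m, c, f, h1, h2, by field_simp, h3⟩

theorem Deg.congr (h : Deg H a d) (h' : EqOn H b a) : Deg H b d := by
  obtain ⟨m, c, f, h1, h2, h3, h4⟩ := h
  exact ⟨m, c, f, h1, h2, h3, (h'.nsmul m).trans h4⟩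

theorem deg_self : Deg H H 1 := ⟨1, 1, 1, one_pos, one_ne_zero, by simp, by
  simpa using EqOn.rfl⟩

theorem deg_pr (f : K) : Deg H (pr k f) 0 := by
  by_cases h : f = 0
  · exact ⟨1, 0, 1, one_pos, one_ne_zero, by simp, by simpa [h, pr_zero] using EqOn.rfl⟩
  · exact ⟨1, 0, f, one_pos, h, by simp, by simpa using EqOn.rfl⟩

theorem Deg.add (h : Deg H a d) (h' : Deg H b e) : Deg H (a + b) (d + e) := by
  obtain ⟨m, c, f, h1, h2, h3, h4⟩ := h
  obtain ⟨m', c', f', h5, h6, h7, h8⟩ := h'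
  refine ⟨m * m', m' * c + m * c', f ^ m' * f' ^ m, mul_pos h1 h5,
    mul_ne_zero (pow_ne_zero _ h2) (pow_ne_zero _ h6), by push_cast; rw [h3, h7]; ring, ?_⟩
  convert (h4.nsmul m').add (h8.nsmul m) using 1
  · rw [smul_add, smul_smul, smul_smul, mul_comm m' m]
  · rw [pr_mul (pow_ne_zero _ h2) (pow_ne_zero _ h6), pr_pow h2, pr_pow h6, add_smul, mul_smul,
      mul_smul, smul_add, smul_add, natCast_zsmul, natCast_zsmul]
    abel

theorem Deg.neg (h : Deg H a d) : Deg H (-a) (-d) := by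
  obtain ⟨m, c, f, h1, h2, h3, h4⟩ := h
  refine ⟨m, -c, f⁻¹, h1, inv_ne_zero h2, by push_cast; rw [h3]; ring, ?_⟩
  convert h4.neg using 1
  · rw [smul_neg]
  · rw [pr_inv, neg_smul, neg_add]

theorem Deg.sub (h : Deg H a d) (h' : Deg H b e) : Deg H (a - b) (d - e) := by
  simpa only [sub_eq_add_neg] using h.add h'.neg

theorem deg_zero : Deg H 0 0 := by simpa using deg_pr (H := H) 1

theorem Deg.nsmul (h : Deg H a d) (m : ℕ) : Deg H (m • a) (m * d) := by
  induction m with
  | zero => simpa using deg_zero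
  | succ m ih =>
    rw [succ_nsmul, Nat.cast_succ, add_mul, one_mul]
    exact ih.add h

theorem Deg.of_nsmul {m : ℕ} (hm : 0 < m) (h : Deg H (m • a) (m * d)) : Deg H a d := by
  obtain ⟨l, c, f, h1, h2, h3, h4⟩ := h
  exact ⟨l * m, c, f, mul_pos h1 hm, h2, by rw [h3]; push_cast; ring, by rwa [mul_smul]⟩

end Defs

/-- **uniform lower bound for the Hilbert function** of a birational free linear system -/
def HilStmt : Prop := ∀ {E K : Type} [Field E] [Field K] [Algebra E K] [CharZero E]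
  [Algebra.EssFiniteType E K] {U : ℕ → Set K}, Gj.Ser U → ∀ {N : ℕ} {l : Fin N → K},
  (∀ j, l j ∈ U 1) → (∃ j, l j ≠ 0) → qf E l = ⊤ → ∀ {δ u q : ℕ},
  (δ : ℤ) ≤ bnum (replicate (dim E K) (mxf E l)) → δ + dim E K * u ≤ q →
  FiniteDimensional E (Submodule.span E (U q)) →
  δ * u ^ dim E K ≤ finrank E (Submodule.span E (U q))

/-- **the classes of a fibration in curves**: `ψ` is the pull-back of the canonical class of the
base, `φ` bounds the canonical class of the foliation -/
def BetaStmt : Prop := ∀ {k M K : Type} [Field k] [Field M] [Field K] [Algebra k M] [Algebra M K]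
  [Algebra k K] [IsScalarTower k M K] [CharZero k] [Algebra.EssFiniteType k K]
  {H : BD k K} {r : ℕ}, In H r → Gj.Reg M K → ∀ (Z : Fr M K (Fin 1)) {n : ℕ}
  (Y : Fr k M (Fin (n + 1))), ∃ (ψ φ : BD k K) (γ : ℚ),
    (∀ P, Prm H P → Kv (P.v.comap (algebraMap M K)) Y.basis (ψ.val P)) ∧
    (∀ P, Prm H P → ∀ f ∈ P.1, P.v (Z.D 0 f) ≤ φ.val P) ∧
    Deg H ψ (-γ) ∧ Deg H φ (γ - 1 / r) ∧ 1 ≤ 2 * r * γ

/-- the output -/
def VolOut {k K : Type} [Field k] [Field K] [Algebra k K] [CharZero k]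
    [Algebra.EssFiniteType k K] (H : BD k K) (C : ℕ) : Prop :=
  ∃ M : IntermediateField k K, Gj.Reg M K ∧ 2 ≤ dim M K ∧
    bnum (replicate (dim M K) (up M H)) ≤ (C : ℤ) ^ dim M K

/-- **the volume bound** in dimension at most `n` -/
def Vol (n : ℕ) : Prop := ∃ C : ℕ, ∀ {k K : Type} [Field k] [Field K] [Algebra k K] [CharZero k]
  [Algebra.EssFiniteType k K] {H : BD k K} {r : ℕ}, In H r → 2 ≤ dim k K → dim k K ≤ n →
  VolOut H (C * r)

end Crest.Agent.X262.Vol77
end
end

-- ▼ part X262/Vol77/Along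
section

/-!
# Row 262, Vol77 (helper77), part 1: sections which vanish along a fibre

`E ≤ M ≤ K` a tower of fields.

* `Bas M V r` : a basis over `M` of the span of `V`, chosen in `V`, with coordinate functionals;
* `Bas.pl`    : Plücker coordinates;
* `along`     : if no combination of Plücker coordinates of `V₂ ⊇ V V` vanishes to order `T` at
  the generic point of `M / E`, then the rank of `V` over `E` is bounded.
-/

set_option autoImplicit false
set_option linter.unusedSectionVars false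

noncomputable section

namespace Crest.Agent.X262.Vol77

open Module Crest.Agent.X277 Crest.Agent.X277.Gj
open scoped TensorProduct

/-! ### determinants -/

section Det

variable {A n α : Type*} [CommRing A] [Fintype n] [DecidableEq n]

theorem det_mem_pow (J : Ideal A) (R : Matrix n n A) (w : n → ℕ) (h : ∀ l c, R l c ∈ J ^ w l) :
    R.det ∈ J ^ ∑ l, w l := by
  rw [Matrix.det_apply]
  refine Ideal.sum_mem _ fun σ _ => ?_
  rw [Units.smul_def, zsmul_eq_mul, ← Equiv.sum_comp σ w, ← Finset.prod_pow_eq_pow_sum]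
  exact Ideal.mul_mem_left _ _ (Ideal.prod_mem_prod fun i _ => h _ _)

/-- independent rows are completed by standard rows to a matrix with nonzero determinant -/
theorem exists_complete [Nontrivial A] {ρ : α → n → A} (h : LinearIndependent A ρ)
    (T : Finset α) : ∃ (R : Matrix n n A) (P : Finset n), R.det ≠ 0 ∧ P.card = T.card ∧
      (∀ l ∈ P, ∃ a ∈ T, R l = ρ a) ∧ ∀ l ∉ P, R l = Pi.single l 1 := by
  classical
  induction T using Finset.induction_on with
  | empty => exact ⟨1, ∅, by simp, rfl, by simp, fun l _ => funext fun c => by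
      rw [Matrix.one_apply, Pi.single_apply]; simp [eq_comm]⟩
  | insert a T ha ih =>
    obtain ⟨R, P, h1, h2, h3, h4⟩ := ih
    have key : ∃ l ∉ P, (R.updateRow l (ρ a)).det ≠ 0 := by
      by_contra hc
      push Not at hc
      have h5 : R.det • ρ a = ∑ l, (R.updateRow l (ρ a)).det • R l := by
        have := Matrix.mulVec_cramer R.transpose (ρ a)
        rw [Matrix.det_transpose] at this
        rw [← this]
        ext c
        simp [Matrix.mulVec, dotProduct, Matrix.cramer_transpose_apply, mul_comm]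
      have h6 : R.det • ρ a ∈ Submodule.span A (ρ '' (T : Set α)) := by
        rw [h5]
        refine Submodule.sum_mem _ fun l _ => ?_
        by_cases hl : l ∈ P
        · obtain ⟨b, hb, hb'⟩ := h3 l hl
          exact Submodule.smul_mem _ _ (hb' ▸ Submodule.subset_span ⟨b, hb, rfl⟩)
        · rw [hc l hl, zero_smul]
          exact zero_mem _
      exact h1 (h.eq_zero_of_smul_mem_span a _ (Submodule.span_mono (Set.image_mono
        (Set.subset_sdiff_singleton (Set.subset_univ _) ha)) h6))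
    obtain ⟨l, hl, h5⟩ := key
    refine ⟨R.updateRow l (ρ a), insert l P, h5, by
      rw [Finset.card_insert_of_notMem hl, Finset.card_insert_of_notMem ha, h2], fun c hc => ?_,
      fun c hc => ?_⟩
    · by_cases hcl : c = l
      · exact ⟨a, Finset.mem_insert_self _ _, by rw [hcl, Matrix.updateRow_self]⟩
      · obtain ⟨b, hb, hb'⟩ := h3 c ((Finset.mem_insert.1 hc).resolve_left hcl)
        exact ⟨b, Finset.mem_insert_of_mem hb, by rw [Matrix.updateRow_ne hcl, hb']⟩
    · rw [Finset.mem_insert, not_or] at hc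
      rw [Matrix.updateRow_ne hc.1, h4 c hc.2]

end Det

/-! ### bases -/

/-- a basis of the span of `V` chosen in `V` -/
structure Bas (M : Type*) {K : Type*} [Field M] [Field K] [Algebra M K] (V : Set K) (r : ℕ) where
  /-- the basis -/
  e : Fin r → K
  /-- the coordinates -/
  ε : Fin r → K →ₗ[M] M
  mem : ∀ i, e i ∈ V
  dual : ∀ i l, ε i (e l) = if l = i then 1 else 0
  sum : ∀ v ∈ V, v = ∑ i, ε i v • e i

variable {E M K : Type*} [Field E] [Field M] [Field K] [Algebra E M] [Algebra M K] [Algebra E K]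
  [IsScalarTower E M K] {V V₂ : Set K} {r r₂ : ℕ}

theorem exists_bas (V : Set K) [FiniteDimensional M (Submodule.span M V)] :
    Nonempty (Bas M V (finrank M (Submodule.span M V))) := by
  obtain ⟨e, h1, h2, h3⟩ := Submodule.exists_fun_fin_finrank_span_eq M V
  obtain ⟨g, hg⟩ := (Fintype.linearCombination M e).exists_leftInverse_of_injective
    (LinearMap.ker_eq_bot.2 (h3.fintypeLinearCombination_injective))
  have h4 : ∀ c, g (∑ i, c i • e i) = c := fun c => LinearMap.congr_fun hg c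
  refine ⟨e, fun i => LinearMap.proj i ∘ₗ g, h1, fun i l => ?_, fun v hv => ?_⟩
  · have := congrFun (h4 (Pi.single l 1)) i
    simpa [Pi.single_apply, eq_comm] using this
  · obtain ⟨c, rfl⟩ := (Submodule.mem_span_range_iff_exists_fun M).1
      (h2 ▸ Submodule.subset_span hv)
    simp only [LinearMap.comp_apply, h4, LinearMap.proj_apply]

namespace Bas

variable (b : Bas M V r)

theorem li : LinearIndependent M b.e := Fintype.linearIndependent_iff.2 fun c hc i => by
  simpa [b.dual] using congrArg (b.ε i) hc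

/-- Plücker coordinates -/
def pl (v : Fin r → K) : M := (Matrix.of fun l c => b.ε c (v l)).det

theorem pl_e : b.pl b.e = 1 := by
  rw [pl, ← Matrix.det_one (n := Fin r)]
  congr 1
  ext l c
  rw [Matrix.of_apply, b.dual, Matrix.one_apply]

end Bas

variable (E) in
/-- a coordinate along the fibre -/
def cA (f : K →ₗ[M] M) : M ⊗[E] K →ₗ[M] M ⊗[E] M := (f.restrictScalars E).baseChange M

theorem cA_tmul (f : K →ₗ[M] M) (c : M) (x : K) : cA E f (c ⊗ₜ x) = c ⊗ₜ f x := rfl

variable (E M K) in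
/-- functions on the base -/
def inc : M ⊗[E] M →ₐ[M] M ⊗[E] K :=
  Algebra.TensorProduct.map (AlgHom.id M M) (IsScalarTower.toAlgHom E M K)

theorem inc_tmul (c x : M) : inc E M K (c ⊗ₜ x) = c ⊗ₜ algebraMap M K x := rfl

theorem cA_inc (f : K →ₗ[M] M) (a : M ⊗[E] M) (s : M ⊗[E] K) :
    cA E f (inc E M K a * s) = a * cA E f s := by
  induction a using TensorProduct.induction_on with
  | zero => simp
  | add x y hx hy => simp [add_mul, hx, hy]
  | tmul c x =>
    induction s using TensorProduct.induction_on with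
    | zero => simp
    | add x y hx hy => simp [mul_add, hx, hy]
    | tmul d y => simp [inc_tmul, cA_tmul, ← Algebra.smul_def]

theorem cA_mul (f : K →ₗ[M] M) (s : M ⊗[E] K) (v : K) :
    cA E f (s * 1 ⊗ₜ v) = cA E (f ∘ₗ LinearMap.mulRight M v) s := by
  induction s using TensorProduct.induction_on with
  | zero => simp
  | add x y hx hy => simp [add_mul, hx, hy]
  | tmul d y => simp [cA_tmul]

theorem Bas.sum_S (b : Bas M V r) {s : M ⊗[E] K} (hs : s ∈ S E M V) :
    s = ∑ i, inc E M K (cA E (b.ε i) s) * 1 ⊗ₜ b.e i := by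
  induction hs using Submodule.span_induction with
  | mem x hx =>
    obtain ⟨v, hv, rfl⟩ := hx
    conv_lhs => rw [b.sum v hv]
    simp [cA_tmul, inc_tmul, TensorProduct.tmul_sum, Algebra.smul_def]
  | zero => simp
  | add x y _ _ hx hy =>
    simp only [map_add, add_mul, Finset.sum_add_distrib]
    rw [← hx, ← hy]
  | smul c x _ hx =>
    simp only [map_smul, smul_mul_assoc, ← Finset.smul_sum]
    rw [← hx]

theorem Bas.pl_mem (b : Bas M V r) {Λ : Set M} (hΛ : ∀ v, (∀ l, v l ∈ V) → b.pl v ∈ Λ)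
    {t : Fin r → M ⊗[E] K} (ht : ∀ l, t l ∈ S E M V) :
    (Matrix.of fun l c => cA E (b.ε c) (t l)).det ∈ S E M Λ := by
  let F : MultilinearMap M (fun _ : Fin r => M ⊗[E] K) (M ⊗[E] M) :=
    ((Matrix.detRowAlternating (n := Fin r) (R := M ⊗[E] M)).toMultilinearMap.restrictScalars
      M).compLinearMap fun _ => LinearMap.pi fun c => cA E (b.ε c)
  have hF : ∀ t, F t = (Matrix.of fun l c => cA E (b.ε c) (t l)).det := fun _ => rfl
  choose n f g h using fun l => Submodule.mem_span_set'.1 (ht l)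
  rw [← hF, ← funext h, F.map_sum]
  refine Submodule.sum_mem _ fun ρ _ => ?_
  rw [F.map_smul_univ]
  refine Submodule.smul_mem _ _ ?_
  choose v hv hv' using fun l => (g l (ρ l)).2
  rw [← funext hv', hF]
  convert one_tmul_mem_S (E := E) (Ω := M) (hΛ v hv) using 1
  exact ((Algebra.TensorProduct.includeRight : M →ₐ[E] M ⊗[E] M).toRingHom.map_det _).symm

/-- a section which vanishes along the fibre gives a Plücker coordinate which vanishes at the
point -/
theorem eq_zero_of_ord [IsDomain (M ⊗[E] K)] (b : Bas M V r) (b₂ : Bas M V₂ r₂)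
    (hV : ∀ x ∈ V, ∀ y ∈ V, x * y ∈ V₂) {Λ : Set M} (hΛ : ∀ v, (∀ l, v l ∈ V₂) → b₂.pl v ∈ Λ)
    {J : Ideal (M ⊗[E] M)} {j : ℕ} (hN : ∀ w ∈ S E M Λ, w ∈ J ^ (j * r) → w = 0)
    {s : M ⊗[E] K} (hs : s ∈ S E M V) (ho : ∀ i, cA E (b.ε i) s ∈ J ^ j) : s = 0 := by
  classical
  by_contra h0
  have h1 : ∀ f : K →ₗ[M] M, cA E f s ∈ J ^ j := fun f => by
    rw [b.sum_S hs, map_sum]
    exact Ideal.sum_mem _ fun i _ => by
      rw [cA_inc]
      exact Ideal.mul_mem_right _ _ (ho i)
  have h2 : ∀ i, s * 1 ⊗ₜ b.e i ∈ S E M V₂ := fun i => S_mul hV hs (one_tmul_mem_S (b.mem i))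
  have h3 : LinearIndependent (M ⊗[E] M) fun i c => cA E (b₂.ε c) (s * 1 ⊗ₜ b.e i) := by
    refine Fintype.linearIndependent_iff.2 fun a ha i => ?_
    have h4 : s * ∑ i, inc E M K (a i) * 1 ⊗ₜ b.e i = 0 := by
      have h5 : ∀ c, ∑ i, a i * cA E (b₂.ε c) (s * 1 ⊗ₜ b.e i) = 0 := fun c => by
        simpa using congrFun ha c
      calc _ = ∑ i, inc E M K (a i) * ∑ c, inc E M K (cA E (b₂.ε c) (s * 1 ⊗ₜ b.e i)) *
              1 ⊗ₜ b₂.e c := by
            rw [Finset.mul_sum]
            exact Finset.sum_congr rfl fun i _ => by rw [← b₂.sum_S (h2 i), mul_left_comm]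
        _ = ∑ c, inc E M K (∑ i, a i * cA E (b₂.ε c) (s * 1 ⊗ₜ b.e i)) * 1 ⊗ₜ b₂.e c := by
            simp only [Finset.mul_sum, map_sum, Finset.sum_mul, map_mul, mul_assoc]
            exact Finset.sum_comm
        _ = 0 := by simp [h5]
    have h6 := congrArg (cA E (b.ε i)) ((mul_eq_zero.1 h4).resolve_left h0)
    simpa [cA_inc, cA_tmul, b.dual, TensorProduct.tmul_ite, ← Algebra.TensorProduct.one_def]
      using h6
  obtain ⟨R, P, h4, h5, h6, h7⟩ := exists_complete h3 Finset.univ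
  have h8 : ∀ l, ∃ t ∈ S E M V₂, R l = fun c => cA E (b₂.ε c) t := fun l => by
    by_cases hl : l ∈ P
    · obtain ⟨a, -, ha⟩ := h6 l hl
      exact ⟨_, h2 a, ha⟩
    · refine ⟨_, one_tmul_mem_S (b₂.mem l), (h7 l hl).trans (funext fun c => ?_)⟩
      rw [cA_tmul, b₂.dual, Pi.single_apply]
      simp [TensorProduct.tmul_ite, ← Algebra.TensorProduct.one_def, eq_comm]
  choose t ht ht' using h8
  refine h4 (hN _ ?_ ?_)
  · convert b₂.pl_mem hΛ ht using 2
    exact funext ht'
  · convert det_mem_pow J R (fun l => if l ∈ P then j else 0) fun l c => ?_ using 2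
    · simp [h5, mul_comm]
    · split_ifs with hl
      · obtain ⟨a, -, ha⟩ := h6 l hl
        rw [ha]
        exact Set.mem_of_eq_of_mem (cA_mul (b₂.ε c) s (b.e a)) (h1 _)
      · simp

/-- **counting along the fibre** -/
theorem along [CharZero E] [Algebra.EssFiniteType E M] [IsDomain (M ⊗[E] K)] (b : Bas M V r)
    (b₂ : Bas M V₂ r₂) (hV : ∀ x ∈ V, ∀ y ∈ V, x * y ∈ V₂) {Λ : Set M}
    (hΛ : ∀ v, (∀ l, v l ∈ V₂) → b₂.pl v ∈ Λ) {j : ℕ}
    (hN : ∀ w ∈ S E M Λ, w ∈ I E M ^ ((j + 1) * r) → w = 0) :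
    FiniteDimensional E (Submodule.span E V) ∧
      finrank E (Submodule.span E V) ≤ r * (j + dm E M).choose (dm E M) := by
  obtain ⟨h1, h2⟩ := Jet.finrank_quot_J (AlgHom.id E M) j
  let F : S E M V →ₗ[M] (Fin r → (M ⊗[E] M) ⧸ I E M ^ (j + 1)) :=
    (LinearMap.pi fun i => (Ideal.Quotient.mkₐ M _).toLinearMap ∘ₗ cA E (b.ε i)) ∘ₗ
      Submodule.subtype _
  have hF : Function.Injective F := (injective_iff_map_eq_zero F).2 fun s hs =>
    Subtype.ext (eq_zero_of_ord b b₂ hV hΛ hN s.2 fun i =>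
      Ideal.Quotient.eq_zero_iff_mem.1 (congrFun hs i))
  have h3 : FiniteDimensional M (S E M V) := Module.Finite.of_injective F hF
  have h4 := LinearMap.finrank_le_finrank_of_injective hF
  rw [finrank_pi_fintype, Finset.sum_const, h2, Finset.card_univ, Fintype.card_fin,
    smul_eq_mul, Jet.finrank_S] at h4
  exact ⟨Jet.finite_of_S (Ω := M) V, h4⟩

end Crest.Agent.X262.Vol77
end
end

-- ▼ part X262/Wr72/Leaf
section

/-!
# Row 262, Wr72 (helper72), part 2: Wronskians along one derivation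

* `wr D s = det (D ^ i (s j))`;
* `wr_smul`     : `wr (u • D) (c s) = c ^ r * u ^ C(r,2) * wr D s`;
* `v_wr_le`     : **(W2)** `v (wr D s) * v u ^ C(r,2) ≤ c ^ r` if `u • D` preserves the ring;
* `wr_mul`      : `wr (e A) = wr e * det A` for a matrix of constants;
* `wr_ne_zero`, `wr_ne_zero_iff` : independence over the constants;
* `Tow.v_wr_le` : the bound in terms of the canonical values of `K` and `M`.
-/

set_option autoImplicit false
set_option linter.unusedSectionVars false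

noncomputable section

namespace Crest.Agent.X262.Wr72

open Module Crest.Agent.X277 Crest.Agent.X277.Jet Crest.Agent.X277.Ts

section Ring

variable {k K : Type*} [CommRing k] [CommRing K] [Algebra k K] {r : ℕ}

/-- the Wronskian along one derivation -/
def wr (D : Derivation k K K) (s : Fin r → K) : K :=
  (Matrix.of fun i j : Fin r => D^[i] (s j)).det

/-- one derivation as a commuting family -/
def cd1 (D : Derivation k K K) : CD k K Unit := ⟨fun _ => D, fun _ _ _ => rfl⟩

theorem cd1_dp (D : Derivation k K K) (i : ℕ) (x : K) :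
    (cd1 D).dp (Finsupp.single () i) x = D^[i] x := by
  rw [CD.dp_single, Module.End.pow_apply]
  rfl

/-- multi-indices in one variable -/
def eU (j : ℕ) : Fin (j + 1) ≃ Le Unit j where
  toFun i := ⟨Finsupp.single () i, mem_Le.2 (by simpa using Nat.lt_succ_iff.1 i.2)⟩
  invFun β := ⟨β.1 (), by
    have := mem_Le.1 β.2
    rw [Finsupp.degree_eq_sum] at this
    simpa [Nat.lt_succ_iff] using this⟩
  left_inv i := by simp
  right_inv β := by
    ext
    simp

theorem wr_eq_W (D : Derivation k K K) {j : ℕ} (s : Fin (j + 1) → K) :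
    wr D s = W (cd1 D) (Le Unit j) fun a => s ((eU j).symm a) := by
  rw [W, ← Matrix.det_submatrix_equiv_self (eU j), wr]
  congr 1
  ext a b
  simp only [Matrix.of_apply, Matrix.submatrix_apply, Equiv.symm_apply_apply]
  exact (cd1_dp D a _).symm

theorem card_Le_unit (j : ℕ) : (Le Unit j).card = j + 1 := by
  rw [card_Le]
  simp

theorem bb_unit (j : ℕ) : bb Unit j = (j + 1).choose 2 := by
  have h := succ_mul_bb (ι := Unit) j
  rw [card_Le_unit, Fintype.card_unit] at h
  rw [Nat.choose_two_right, Nat.add_sub_cancel, mul_comm, ← h,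
    Nat.mul_div_cancel_left _ (by norm_num)]

/-- transformation law -/
theorem wr_smul (D : Derivation k K K) (u c : K) (s : Fin r → K) :
    wr (u • D) (fun j => c * s j) = c ^ r * u ^ r.choose 2 * wr D s := by
  cases r with
  | zero => simp [wr]
  | succ j =>
    rw [wr_eq_W, wr_eq_W, W_frame (cd1 D) (cd1 (u • D)) (Matrix.of fun _ _ => u)
      (fun _ _ => by simp [cd1]), card_Le_unit, bb_unit, Matrix.det_unique]
    rfl

theorem iter_sum (D : Derivation k K K) (i : ℕ) {α : Type*} (t : Finset α) (f : α → K) :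
    D^[i] (∑ a ∈ t, f a) = ∑ a ∈ t, D^[i] (f a) := by
  induction i with
  | zero => rfl
  | succ i ih => simp only [Function.iterate_succ_apply', ih, map_sum]

theorem iter_const_mul (D : Derivation k K K) (i : ℕ) {a : K} (ha : D a = 0) (x : K) :
    D^[i] (a * x) = a * D^[i] x := by
  induction i with
  | zero => rfl
  | succ i ih => simp [Function.iterate_succ_apply', ih, ha]

/-- linear combinations with constant coefficients -/
theorem wr_mul (D : Derivation k K K) (e : Fin r → K) (A : Matrix (Fin r) (Fin r) K)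
    (hA : ∀ i j, D (A i j) = 0) : wr D (fun j => ∑ l, A l j * e l) = A.det * wr D e := by
  rw [wr, wr, mul_comm, ← Matrix.det_mul]
  congr 1
  ext i j
  rw [Matrix.of_apply, Matrix.mul_apply, iter_sum]
  exact Finset.sum_congr rfl fun l _ => by rw [iter_const_mul D i (hA l j), mul_comm]; rfl

/-- linear combinations over the ground ring -/
theorem wr_smul_mat (D : Derivation k K K) (e : Fin r → K) (A : Matrix (Fin r) (Fin r) k) :
    wr D (fun j => ∑ l, A l j • e l) = algebraMap k K A.det * wr D e := by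
  rw [RingHom.map_det, ← wr_mul D e ((algebraMap k K).mapMatrix A) fun i j => D.map_algebraMap _]
  simp [Algebra.smul_def]


end Ring

section Field

variable {k K Γ : Type*} [CommRing k] [Field K] [Algebra k K] {r : ℕ}
  [LinearOrderedCommGroupWithZero Γ] {v : Valuation K Γ} {c : Γ}

theorem v_wr_le_one {D : Derivation k K K} (hD : ∀ f, v f ≤ 1 → v (D f) ≤ 1) {s : Fin r → K}
    (hs : ∀ j, v (s j) ≤ 1) : v (wr D s) ≤ 1 := by
  refine v_det_le fun i j => ?_
  rw [Matrix.of_apply]
  induction (i : ℕ) with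
  | zero => exact hs j
  | succ i ih => rw [Function.iterate_succ_apply']; exact hD _ ih

/-- **(W2)** -/
theorem v_wr_le {D : Derivation k K K} {u : K} (hD : ∀ f, v f ≤ 1 → v (u * D f) ≤ 1)
    {s : Fin r → K} (hs : ∀ j, v (s j) ≤ c) : v (wr D s) * v u ^ r.choose 2 ≤ c ^ r := by
  cases r with
  | zero => simp [wr]
  | succ j =>
    obtain ⟨h, σ, h1, h2, rfl⟩ := exists_scale hs
    have h3 := v_wr_le_one (D := u • D) hD h2
    have h4 := wr_smul D u 1 σ
    have h5 := wr_smul D 1 h σ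
    simp only [one_mul, one_pow, one_smul, mul_one] at h4 h5
    rw [h5, map_mul, mul_assoc, mul_comm (v (wr D σ)), ← map_pow v u, ← map_mul, ← h4, map_pow]
    exact (mul_le_of_le_one_right' h3).trans (pow_le_pow_left' h1 _)

/-- **(W2)**, with a bound `g` in the value group of `v` -/
theorem v_wr_le' {D : Derivation k K K} {t : K} (hD : ∀ f, v f ≤ 1 → v (D f) ≤ v t) (ht : t ≠ 0)
    {s : Fin r → K} (hs : ∀ j, v (s j) ≤ c) : v (wr D s) ≤ c ^ r * v t ^ r.choose 2 := by
  have h0 : 0 < v t := zero_lt_iff.2 ((Valuation.ne_zero_iff v).2 ht)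
  have h := v_wr_le (D := D) (u := t⁻¹) (fun f hf => by
    rw [map_mul, map_inv₀, inv_mul_le_iff₀ h0, mul_one]
    exact hD f hf) hs
  rwa [map_inv₀, inv_pow, mul_inv_le_iff₀ (pow_pos h0 _)] at h

/-- a vanishing Wronskian gives a relation with constant coefficients -/
theorem exists_rel (D : Derivation k K K) : ∀ {r : ℕ} (s : Fin r → K), wr D s = 0 →
    ∃ a : Fin r → K, a ≠ 0 ∧ (∀ j, D (a j) = 0) ∧ ∑ j, a j * s j = 0 := by
  intro r
  induction r with
  | zero => exact fun s h => absurd h (by simp [wr])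
  | succ r ih =>
    intro s h
    by_cases h1 : wr D (fun j : Fin r => s j.succ) = 0
    · obtain ⟨a, ha, h2, h3⟩ := ih _ h1
      refine ⟨Fin.cons 0 a, fun h4 => ha (funext fun j => ?_), fun j => ?_, ?_⟩
      · simpa using congrFun h4 j.succ
      · refine Fin.cases ?_ (fun j => ?_) j
        · simp
        · simpa using h2 j
      · simpa [Fin.sum_univ_succ] using h3
    obtain ⟨a, ha, h2⟩ := Matrix.exists_mulVec_eq_zero_iff.2 h
    have h3 : ∀ i ≤ r, ∑ j, D^[i] (s j) * a j = 0 := fun i hi =>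
      congrFun h2 ⟨i, Nat.lt_succ_of_le hi⟩
    have h4 : ∀ b : Fin (r + 1) → K, b 0 = 0 → (∀ i < r, ∑ j, D^[i] (s j) * b j = 0) → b = 0 := by
      intro b h0 hb
      have := Matrix.eq_zero_of_mulVec_eq_zero h1 (v := fun j => b j.succ) (funext fun i => by
        have := hb i i.2
        rwa [Fin.sum_univ_succ, h0, mul_zero, zero_add] at this)
      funext j
      exact Fin.cases h0 (fun j => congrFun this j) j
    have h5 : a 0 ≠ 0 := fun h0 => ha (h4 a h0 fun i hi => h3 i hi.le)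
    have h6 : ∀ i ≤ r, ∑ j, D^[i] (s j) * (a j / a 0) = 0 := fun i hi => by
      simp only [← mul_div_assoc, ← Finset.sum_div, h3 i hi, zero_div]
    refine ⟨fun j => a j / a 0, fun h7 => one_ne_zero ((div_self h5).symm.trans (congrFun h7 0)),
      congrFun (h4 (fun j => D (a j / a 0)) (by simp [div_self h5]) fun i hi => ?_), ?_⟩
    · have h7 := congrArg D (h6 i hi.le)
      have h8 := h6 (i + 1) hi
      simp only [map_sum, Derivation.leibniz, smul_eq_mul, map_zero, Finset.sum_add_distrib,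
        Function.iterate_succ_apply'] at h7 h8
      rwa [Finset.sum_congr rfl fun j _ => mul_comm (a j / a 0) _, h8, add_zero] at h7
    · simpa [mul_comm] using h6 0 (Nat.zero_le _)

variable {M : Type*} [Field M] [Algebra M K]

/-- independent families have a nonzero Wronskian -/
theorem wr_ne_zero {D : Derivation k K K} (hD : ∀ x, D x = 0 → x ∈ (algebraMap M K).range)
    {s : Fin r → K} (hs : LinearIndependent M s) : wr D s ≠ 0 := fun h => by
  obtain ⟨a, ha, h1, h2⟩ := exists_rel D s h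
  choose m hm using fun j => hD _ (h1 j)
  refine ha (funext fun j => ?_)
  rw [← hm, Fintype.linearIndependent_iff.1 hs m (by simpa [Algebra.smul_def, hm] using h2) j]
  simp

theorem li_of_wr_ne {D : Derivation M K K} {s : Fin r → K} (h : wr D s ≠ 0) :
    LinearIndependent M s := by
  rw [Fintype.linearIndependent_iff]
  intro m hm j
  have := Matrix.eq_zero_of_mulVec_eq_zero h (v := fun j => algebraMap M K (m j)) (funext fun i => by
    have h1 := congrArg D^[i] hm
    rw [iter_sum, Function.iterate_fixed (map_zero D)] at h1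
    change ∑ l, D^[i] (s l) * algebraMap M K (m l) = 0
    refine Eq.trans (Finset.sum_congr rfl fun l _ => ?_) h1
    rw [Algebra.smul_def, iter_const_mul D i (D.map_algebraMap _), mul_comm])
  simpa using congrFun this j

theorem wr_ne_zero_iff {D : Derivation M K K} (hD : ∀ x, D x = 0 → x ∈ (algebraMap M K).range)
    {s : Fin r → K} : wr D s ≠ 0 ↔ LinearIndependent M s :=
  ⟨li_of_wr_ne, wr_ne_zero hD⟩

end Field

section Curve

variable {E M K ι κ Γ : Type*} [Field E] [Field M] [Field K] [Algebra E M] [Algebra M K]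
  [Algebra E K] [IsScalarTower E M K] [Fintype ι] [DecidableEq ι] [Fintype κ] [DecidableEq κ]
  [Unique κ] [LinearOrderedCommGroupWithZero Γ] {v : Valuation K Γ} {r : ℕ}

/-- on a regular curve `K / M` the Wronskian detects independence over `M` -/
theorem wr_fr_ne_iff [CharZero M] [Algebra.EssFiniteType M K] (hM : Gj.Reg M K) (Z : Fr M K κ)
    {s : Fin r → K} : wr (Z.D default) s ≠ 0 ↔ LinearIndependent M s :=
  wr_ne_zero_iff fun _ hx => const_of_reg hM Z fun i => Unique.eq_default i ▸ hx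


end Curve

end Crest.Agent.X262.Wr72
end
namespace Crest.Agent.X262.Wr72.Tow
end Crest.Agent.X262.Wr72.Tow
end

-- ▼ part X262/Vol77/NoGen
section

/-!
# Row 262, Vol77 (helper77), part 2: full jets are impossible

* `Deg.nonneg` : a class with a section has nonnegative degree;
* `noGen`      : a series of small degree on a base with negative canonical class does not
  generate many jets; `In.gap` : the first gap field;
* `lam`, `ser_lam`, `pl_mem_lam` : the series of Plücker coordinates on the base of a fibration in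
  curves; `second` : the second gap field.
-/

set_option autoImplicit false
set_option linter.unusedSectionVars false

noncomputable section

namespace Crest.Agent.X262.Vol77

open Module Crest.Agent.X277 Crest.Agent.X277.BD Crest.Agent.X277.Pst Crest.Agent.X277.Jet
open Crest.Agent.X262.Mod Crest.Agent.X262.Wr72 Crest.Agent.X277.Gj
open List (replicate)

variable {k M K : Type} [Field k] [Field M] [Field K] [Algebra k M] [Algebra M K] [Algebra k K]
  [IsScalarTower k M K] [CharZero k] [Algebra.EssFiniteType k K]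
  {H a A ψ φ : BD k K} {d α γ : ℚ} {r : ℕ} {s : K}

theorem Deg.nonneg (h : Deg H a d) (hH : IsMod H) (hd : 0 < dim k K) (h0 : s ≠ 0)
    (hs : ∀ P, Prm H P → P.v s ≤ a.val P) : 0 ≤ d := by
  obtain ⟨m, c, f, h1, h2, h3, h4⟩ := h
  obtain ⟨e, he⟩ := Nat.exists_eq_succ_of_ne_zero hd.ne'
  have h5 : Eff (c • H + pr k f) := ⟨s ^ m, (((car_self hH.free).zsmul c).add (car_pr f)).mem_Sec hH
    fun P hP => by
      rw [← h4 P hP, map_pow, val_nsmul]
      exact pow_le_pow_left' (hs P hP) m, pow_ne_zero _ h0⟩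
  have h6 := h5.bnum_nonneg (all_rp hH.free.nef e)
  have h7 : 0 < bnum (replicate (e + 1) H) := bnum_pos (by simp [he]) (all_rp ⟨hH.free.nef, hH.big⟩ _)
  rw [bnum_add, bnum_pr, add_zero, bnum_zsmul] at h6
  have h8 : (0 : ℚ) ≤ c := Int.cast_nonneg (nonneg_of_mul_nonneg_left h6 h7)
  rw [h3] at h8
  exact nonneg_of_mul_nonneg_right h8 (Nat.cast_pos.2 h1)

/-- **full jets are impossible** -/
theorem noGen (hH : IsMod H) (hd : 0 < dim k K) {n : ℕ} (Y : Fr k M (Fin (n + 1))) {ρ : ℕ}
    (hψ : ∀ P, Prm H P → ∃ g, Kv (P.v.comap (algebraMap M K)) Y.basis g ∧ g ^ ρ ≤ ψ.val P)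
    (dψ : Deg H ψ (-γ)) (dA : Deg H A α) (hγ : 0 < γ) {Λ : ℕ → Set M}
    (hΛ : ∀ j, ∀ u ∈ Λ j, ∀ P, Prm H P → P.v (algebraMap M K u) ≤ (j • A).val P) {T : ℕ}
    (hT0 : 0 < T) (hT : ρ * (n + 2) * (n + 1) * α < T * γ) : ¬ GenS k Λ (n + 1) T := by
  rintro ⟨c, hc⟩
  have : CharZero M := Slope.cz_up k M
  obtain ⟨μ, hμ⟩ := exists_nat_gt (max ((c + 1) * γ / (T * γ - ρ * (n + 2) * (n + 1) * α)) (c + 1))
  rw [max_lt_iff, div_lt_iff₀ (sub_pos.2 hT)] at hμ
  have h1 : c + 1 ≤ T * μ := (by exact_mod_cast hμ.2.le : c + 1 ≤ μ).trans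
    (Nat.le_mul_of_pos_left μ hT0)
  obtain ⟨j, hj⟩ := Nat.exists_eq_add_of_le h1
  obtain ⟨s, h2, h3⟩ := exists_W_of_gen Y _ (hc (j + 1) ((n + 1) * μ) (by nlinarith))
  have h4 := (((dA.nsmul ((n + 1) * μ)).nsmul ((Le (Fin (n + 1)) j).card * ρ)).add
    (dψ.nsmul (Ts.bb (Fin (n + 1)) j))).nonneg hH hd
    (pow_ne_zero ρ ((map_ne_zero (algebraMap M K)).2 h3)) fun P hP => by
      obtain ⟨g, h5, h6⟩ := hψ P hP
      have h7 := h5.v_W_le (c := (((n + 1) * μ) • A).val P) fun a => hΛ _ _ (h2 a) P hP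
      rw [map_pow, val_add, val_nsmul (_ * ρ), val_nsmul _ ψ, pow_mul]
      refine (pow_le_pow_left' h7 ρ).trans ?_
      rw [mul_pow, ← pow_mul g, mul_comm _ ρ, pow_mul g]
      exact mul_le_mul_right (pow_le_pow_left' h6 _) _
  have h5 : ((n + 1 + 1 : ℕ) : ℚ) * Ts.bb (Fin (n + 1)) j = j * (Le (Fin (n + 1)) j).card := by
    have := succ_mul_bb (ι := Fin (n + 1)) j
    rw [Fintype.card_fin] at this
    exact_mod_cast this
  have h6 : (0 : ℚ) < (Le (Fin (n + 1)) j).card :=
    Nat.cast_pos.2 (Finset.card_pos.2 ⟨0, mem_Le.2 (by simp)⟩)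
  have h7 : (T : ℚ) * μ = c + 1 + j := by exact_mod_cast hj
  generalize ((Le (Fin (n + 1)) j).card : ℕ) = N at *
  generalize Ts.bb (Fin (n + 1)) j = B at *
  push_cast at h4 h5
  have h8 : (0 : ℚ) ≤ N * (ρ * (n + 2) * (n + 1) * α * μ - j * γ) := by
    have := mul_nonneg (show (0 : ℚ) ≤ n + 1 + 1 by positivity) h4
    exact this.trans_eq (by linear_combination (-γ) * h5)
  have h9 := nonneg_of_mul_nonneg_right h8 h6
  have h10 := hμ.1
  nlinarith

/-- the series of the multiples of a class -/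
def sr (H : BD k K) (m : ℕ) : Set K := (m • H).Sec

theorem ser_sr (hH : IsMod H) : Ser (sr H) where
  one := by simpa [sr] using one_mem_Sec
  mul a b x hx y hy := by
    have h := mul_mem_Sec hx hy
    rwa [← add_nsmul] at h
  tau := by simpa [sr] using hH.free.exists_ne
  bir := hH.bir

/-- **the first gap field** -/
theorem In.gap (h : In H r) (hd : 0 < dim k K) {n : ℕ} (hn : dim k K ≤ n) :
    ∃ F : IntermediateField k K, Reg F K ∧ 0 < dim F K ∧
      NoSec F (sr H) (2 ^ n * ((n + 1) * n + 1) * r) := by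
  obtain ⟨e, he⟩ := Nat.exists_eq_succ_of_ne_zero hd.ne'
  have he' : dm k K = e + 1 := he
  obtain ⟨X⟩ : Nonempty (Fr k K (Fin (e + 1))) := he' ▸ exists_fr' k K
  obtain ⟨f, h1, h2⟩ := h.can' X.basis
  have h0 : 0 < ((n + 1) * n + 1) * r := mul_pos (Nat.succ_pos _) h.pos
  obtain h3 | ⟨F, h3, h4, h5⟩ := Gj.gap (E := k) (ser_sr h.mod) h0 h.reg
  · refine absurd (he' ▸ h3) (noGen (M := K) (ρ := r) (ψ := pr k f - H) (γ := 1) h.mod hd X
      (fun P hP => ?_) (by simpa using (deg_pr f).sub deg_self) deg_self one_pos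
      (Λ := sr H) (fun j u hu P _ => hu P) h0 ?_)
    · have h4 : R276.FKDefs_779.IsDiv k (e + 1) P.v.valuationSubring := by
        rw [ValuationSubring.valuationSubring_valuation, ← he']
        exact hP.dvs
      obtain ⟨g, hg⟩ := exists_kv X h4
      refine ⟨g, hg, ?_⟩
      rw [val_sub, val_pr h1, (h2 P hP.dvs g hg).2 hP, mul_div_cancel_right₀ _ (val_ne _ _)]
    · have h4 : (e : ℚ) + 1 ≤ n := by exact_mod_cast he ▸ hn
      have h5 : (0 : ℚ) < r := Nat.cast_pos.2 h.pos
      have h6 : ((e : ℚ) + 2) * (e + 1) ≤ (n + 1) * n :=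
        mul_le_mul (by linarith) h4 (by positivity) (by positivity)
      push_cast
      nlinarith
  · refine ⟨F, h3, h4, h5.mono ?_⟩
    rw [mul_assoc]
    exact Nat.mul_le_mul_right _ (Nat.pow_le_pow_right two_pos ((Slope.dm_le k F K).trans hn))

/-! ### the series on the base -/

variable (M) in
/-- functions on the base which are bounded by `j A` at the primes -/
def lam (H A : BD k K) (j : ℕ) : Submodule k M where
  carrier := {u | ∀ P, Prm H P → P.v (algebraMap M K u) ≤ (j • A).val P}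
  add_mem' ha hb P hP := by
    rw [map_add]
    exact (P.v.map_add _ _).trans (max_le (ha P hP) (hb P hP))
  zero_mem' P _ := by simp
  smul_mem' c x hx P hP := by
    rw [Algebra.smul_def, map_mul, ← IsScalarTower.algebraMap_apply, ← Algebra.smul_def]
    exact (P.v_smul_le c _).trans (hx P hP)

theorem mul_mem_lam {i j : ℕ} {x y : M} (hx : x ∈ lam M H A i) (hy : y ∈ lam M H A j) :
    x * y ∈ lam M H A (i + j) := fun P hP => by
  rw [map_mul, map_mul, add_nsmul, val_add]
  exact mul_le_mul' (hx P hP) (hy P hP)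

theorem one_mem_lam : (1 : M) ∈ lam M H A 0 := fun P _ => by simp

theorem ser_lam (h1 : (1 : M) ∈ lam M H A 1) {G : Set M} (hG : IntermediateField.adjoin k G = ⊤)
    (h : ∀ y ∈ G, ∃ w ∈ lam M H A 1, w ≠ 0 ∧ y * w ∈ lam M H A 1) :
    Ser fun j => (lam M H A j : Set M) where
  one := one_mem_lam
  mul _ _ _ hx _ hy := mul_mem_lam hx hy
  tau := ⟨1, h1, one_ne_zero⟩
  bir f := by
    have hf : f ∈ IntermediateField.adjoin k G := hG ▸ IntermediateField.mem_top
    induction hf using IntermediateField.adjoin_induction with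
    | mem x hx => exact ⟨1, h x hx⟩
    | algebraMap c => exact ⟨0, 1, one_mem_lam, one_ne_zero, by
        rw [← Algebra.smul_def]; exact Submodule.smul_mem _ _ one_mem_lam⟩
    | add x y _ _ hx hy =>
      obtain ⟨i, w, h2, h3, h4⟩ := hx
      obtain ⟨j, z, h5, h6, h7⟩ := hy
      refine ⟨i + j, w * z, mul_mem_lam h2 h5, mul_ne_zero h3 h6, ?_⟩
      rw [show (x + y) * (w * z) = x * w * z + w * (y * z) by ring]
      exact add_mem (mul_mem_lam h4 h5) (mul_mem_lam h2 h7)
    | inv x _ hx =>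
      obtain ⟨i, w, h2, h3, h4⟩ := hx
      by_cases h0 : x = 0
      · exact ⟨i, w, h2, h3, by simp [h0]⟩
      · exact ⟨i, x * w, h4, mul_ne_zero h0 h3, by rwa [inv_mul_cancel_left₀ h0]⟩
    | mul x y _ _ hx hy =>
      obtain ⟨i, w, h2, h3, h4⟩ := hx
      obtain ⟨j, z, h5, h6, h7⟩ := hy
      refine ⟨i + j, w * z, mul_mem_lam h2 h5, mul_ne_zero h3 h6, ?_⟩
      rw [mul_mul_mul_comm]
      exact mul_mem_lam h4 h7

theorem Bas.pl_update {V : Set K} {ρ : ℕ} (b : Bas M V ρ) (i : Fin ρ) (x : K) :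
    b.pl (Function.update b.e i x) = b.ε i x := by
  rw [Bas.pl, show (Matrix.of fun l c => b.ε c (Function.update b.e i x l)) =
      (1 : Matrix (Fin ρ) (Fin ρ) M).updateRow i fun c => b.ε c x by
    ext l c
    rw [Matrix.of_apply, Matrix.updateRow_apply, Function.update_apply]
    split_ifs
    · rfl
    · rw [b.dual, Matrix.one_apply], ← Matrix.cramer_transpose_apply, Matrix.transpose_one,
    Matrix.cramer_one]
  rfl

/-- Plücker coordinates are quotients of Wronskians -/
theorem pl_mem_lam {D : Derivation M K K} (hφ : ∀ P, Prm H P → ∀ f ∈ P.1, P.v (D f) ≤ φ.val P)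
    {m ρ : ℕ} (b : Bas M (sr H m) ρ) (hw : wr D b.e ≠ 0) {v : Fin ρ → K} (hv : ∀ l, v l ∈ sr H m) :
    b.pl v ∈ lam M H (ρ • m • H + ρ.choose 2 • φ - pr k (wr D b.e)) 1 := fun P hP => by
  obtain ⟨t, ht⟩ := P.exists_v (φ.val P)
  have h1 := v_wr_le' (v := P.v) (D := D) (t := t)
    (fun f hf => ht ▸ hφ P hP f (RZ.le_one_iff.1 hf)) (ne_of_val ht) fun l => hv l P
  have h2 : wr D v = algebraMap M K (b.pl v) * wr D b.e := by
    rw [Bas.pl, ← Matrix.det_transpose, ← wr_smul_mat]
    congr 1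
    exact funext fun l => b.sum _ (hv l)
  rw [one_nsmul, val_sub, val_pr hw, le_div_iff₀ (RZ.pos hw), ← map_mul, ← h2, val_add,
    val_nsmul ρ, val_nsmul _ φ, ← ht]
  exact h1

/-- sections which give generators of the base field -/
theorem exists_level (hH : IsMod H) [Algebra.EssFiniteType k M] : ∃ (G : Set M) (m₀ : ℕ),
    IntermediateField.adjoin k G = ⊤ ∧ ∀ m, m₀ ≤ m → ∀ y ∈ G,
      ∃ w ∈ sr H m, w ≠ 0 ∧ y • w ∈ sr H m := by
  obtain ⟨G, hG⟩ := (IntermediateField.fg_top_iff (F := k) (E := M)).2 inferInstance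
  choose m w h1 h2 h3 using fun y : M => hH.bir (algebraMap M K y)
  refine ⟨G, G.sup m, hG, fun l hl y hy => ?_⟩
  obtain ⟨e, rfl⟩ := Nat.exists_eq_add_of_le ((Finset.le_sup (f := m) hy).trans hl)
  obtain ⟨τ, h4, h5⟩ := (ser_sr hH).exists_ne e
  refine ⟨w y * τ, (ser_sr hH).mul _ _ _ (h1 y) _ h4, mul_ne_zero (h2 y) h5, ?_⟩
  rw [Algebra.smul_def, ← mul_assoc]
  exact (ser_sr hH).mul _ _ _ (h3 y) _ h4

/-- **the second gap field** -/
theorem second (hB : BetaStmt) (h : In H r) (hM : Reg M K) [Algebra.EssFiniteType k M]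
    (h1 : dim M K = 1) (h2 : 2 ≤ dim k K) {n : ℕ} (hn : dim k K ≤ n) :
    ∃ m₀ : ℕ, ∀ m, m₀ ≤ m → ∀ {ρ : ℕ} (b : Bas M (sr H m) ρ), ∃ (Λ : Set M)
      (E : IntermediateField k M), Reg E M ∧ 0 < dim E M ∧
      (∀ v, (∀ l, v l ∈ sr H m) → b.pl v ∈ Λ) ∧
      ∀ w ∈ S E M Λ, w ∈ I E M ^ (2 ^ n * (n * n * (ρ * (2 * m * r + ρ)) + 1)) → w = 0 := by
  have : CharZero M := Slope.cz_up k M
  have : Algebra.EssFiniteType M K := Slope.eft_up k M K
  have h3 := Loc.dim_tower k M K
  obtain ⟨e, he⟩ : ∃ e, dm k M = e + 1 := ⟨dim k M - 1, show dim k M = _ by omega⟩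
  have he' : dim k M = e + 1 := he
  obtain ⟨Y⟩ : Nonempty (Fr k M (Fin (e + 1))) := he ▸ exists_fr' k M
  obtain ⟨Z⟩ : Nonempty (Fr M K (Fin 1)) := (show dm M K = 1 from h1) ▸ exists_fr' M K
  obtain ⟨ψ, φ, γ, b1, b2, b3, b4, b5⟩ := hB h hM Z Y
  obtain ⟨G, m₀, g1, g2⟩ := exists_level (M := M) h.mod
  refine ⟨m₀, fun m hm ρ b => ?_⟩
  have hw : wr (Z.D 0) b.e ≠ 0 := (wr_fr_ne_iff hM Z).2 b.li
  have hp := fun v => pl_mem_lam b2 b hw (v := v)
  have hS := ser_lam (b.pl_e ▸ hp b.e b.mem) g1 fun y hy => by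
    obtain ⟨w, w1, w2, w3⟩ := g2 m hm y hy
    obtain ⟨i, hi⟩ : ∃ i, b.ε i w ≠ 0 := by
      by_contra hc
      push Not at hc
      exact w2 (by rw [b.sum w w1]; simp [hc])
    have h4 : ∀ x ∈ sr H m, ∀ l, Function.update b.e i x l ∈ sr H m := fun x hx l => by
      rw [Function.update_apply]
      split_ifs
      exacts [hx, b.mem l]
    refine ⟨b.ε i w, b.pl_update i w ▸ hp _ (h4 w w1), hi, ?_⟩
    rw [← smul_eq_mul, ← map_smul, ← b.pl_update]
    exact hp _ (h4 _ w3)
  have hk : Reg k M := Slope.reg_of_ac fun g hg => by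
    obtain ⟨c, hc⟩ := Slope.ac_of_reg h.reg _ (hg.algebraMap (A := K))
    exact ⟨c, (algebraMap M K).injective (by rw [← IsScalarTower.algebraMap_apply, hc])⟩
  have hr : (0 : ℚ) < r := Nat.cast_pos.2 h.pos
  have hγ : 0 < γ := by
    by_contra hc
    nlinarith
  obtain h4 | ⟨E, h4, h5, h6⟩ := Gj.gap (E := k) hS
    (Nat.succ_pos (n * n * (ρ * (2 * m * r + ρ)))) hk
  · refine absurd (he ▸ h4) (noGen (ρ := 1) h.mod (by omega) Y
      (fun P hP => ⟨_, b1 P hP, (pow_one _).le⟩) b3
      ((((deg_self.nsmul m).nsmul ρ).add (b4.nsmul _)).sub (deg_pr _)) hγ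
      (fun j u hu => hu) (Nat.succ_pos _) ?_)
    have h5 : (e : ℚ) + 2 ≤ n := by exact_mod_cast (by omega : e + 2 ≤ n)
    have h6 : ((e : ℚ) + 2) * (e + 1) ≤ n * n :=
      mul_le_mul h5 (by linarith) (by positivity) (by positivity)
    have h7 : (ρ.choose 2 : ℚ) ≤ ρ * ρ := by
      exact_mod_cast (Nat.choose_le_pow ρ 2).trans_eq (sq ρ)
    have h8 : (ρ : ℚ) * (m * 1) + ρ.choose 2 * (γ - 1 / r) - 0 ≤ ρ * (2 * m * r + ρ) * γ := by
      have h9 : (ρ : ℚ) * m * 1 ≤ ρ * m * (2 * r * γ) := mul_le_mul_of_nonneg_left b5 (by positivity)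
      have h10 : (ρ.choose 2 : ℚ) * γ ≤ ρ * ρ * γ := mul_le_mul_of_nonneg_right h7 hγ.le
      have h11 : (0 : ℚ) ≤ ρ.choose 2 * (1 / r) := by positivity
      nlinarith
    have h9 := mul_le_mul_of_nonneg_left h8 (show (0 : ℚ) ≤ (e + 2) * (e + 1) by positivity)
    have h10 := mul_le_mul_of_nonneg_right h6
      (show (0 : ℚ) ≤ ρ * (2 * m * r + ρ) * γ by positivity)
    push_cast
    nlinarith
  · refine ⟨_, E, h4, h5, hp, fun w hw hw' => h6 1 one_pos w hw (Ideal.pow_le_pow_right ?_ hw')⟩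
    rw [mul_one]
    exact Nat.mul_le_mul_right _ (Nat.pow_le_pow_right two_pos
      ((Slope.dm_le k E M).trans (by omega)))

end Crest.Agent.X262.Vol77
end
end

-- ▼ part X262/Vol77/Main
section

/-!
# Row 262, Vol77 (helper77), part 3: the volume bound

* `le_of_count` : a bound for the rank in one large degree bounds the volume;
* `exists_double` : the doubling lemma;
* `vol_of` : `HilStmt → BetaStmt → Vol n`.
-/

set_option autoImplicit false
set_option linter.unusedSectionVars false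
set_option linter.style.haveILetI false

noncomputable section

namespace Crest.Agent.X262.Vol77

open Module Crest.Agent.X277 Crest.Agent.X277.BD Crest.Agent.X277.Pst Crest.Agent.X277.Jet
open Crest.Agent.X262.Mod Crest.Agent.X277.Gj
open List (replicate)

theorem exists_double {ρ : ℕ → ℕ} {T : ℕ} (h1 : ∀ m, 0 < m → 0 < ρ m)
    (h2 : ∀ m, 0 < m → ρ m ≤ T * m + 1) (p₀ : ℕ) : ∃ p, p₀ < p ∧ ρ (2 * p) ≤ 3 * ρ p := by
  by_contra hc
  push Not at hc
  have h3 : ∀ i, 2 ^ i * (i + 2) ≤ 2 * ρ (2 ^ i * (p₀ + 1)) := by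
    intro i
    induction i with
    | zero => simpa using Nat.succ_le_of_lt (h1 _ p₀.succ_pos)
    | succ i ih =>
      have h4 := hc (2 ^ i * (p₀ + 1)) (Nat.le_mul_of_pos_left _ (by positivity))
      have h5 : 0 < 2 ^ i := by positivity
      rw [pow_succ', mul_assoc 2 _ (p₀ + 1)]
      nlinarith
  have h4 := h3 (2 * T * (p₀ + 1) + 1)
  have h5 := h2 (2 ^ (2 * T * (p₀ + 1) + 1) * (p₀ + 1)) (by positivity)
  have h6 : 0 < 2 ^ (2 * T * (p₀ + 1) + 1) := by positivity
  generalize 2 ^ (2 * T * (p₀ + 1) + 1) = x at *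
  nlinarith

variable {k E K : Type} [Field k] [Field E] [Field K] [Algebra k E] [Algebra E K] [Algebra k K]
  [IsScalarTower k E K] [CharZero k] [Algebra.EssFiniteType k K] {H : BD k K} {r : ℕ}

theorem exists_gen_qf (hH : H.Free) (h : H.sf = ⊤) : ∃ (N : ℕ) (l : Fin N → K),
    (∀ j, l j ∈ H.Sec) ∧ (∃ j, l j ≠ 0) ∧ H = mxf k l ∧ qf E l = ⊤ := by
  haveI : Module.Finite k (Submodule.span k (H.Sec : Set K)) := by
    rw [Submodule.span_eq]
    infer_instance
  obtain ⟨l, h1, h2, -⟩ := Submodule.exists_fun_fin_finrank_span_eq k (H.Sec : Set K)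
  replace h2 := h2.trans (Submodule.span_eq _)
  have h3 : ∀ V : RZ k K, ∃ j, V.v (l j) = H.val V := fun V => by
    obtain ⟨g, h3, h4⟩ := hH.exists_gen V
    by_contra hc
    push Not at hc
    obtain ⟨c, rfl⟩ := (Submodule.mem_span_range_iff_exists_fun k).1 (h2 ▸ h3)
    refine h4.not_lt (V.v.map_sum_lt (val_ne _ _) fun j _ => ?_)
    exact (V.v_smul_le _ _).trans_lt ((h1 j V).lt_of_ne (hc j))
  obtain ⟨i, hi⟩ := h3 (RZ.top k K)
  refine ⟨_, l, h1, ⟨i, ne_of_val hi⟩, eq_mxf h1 h3, eq_top_iff.2 fun x _ => ?_⟩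
  have h4 : ∀ f ∈ H.Sec, f / l i ∈ qf E l := fun f hf => by
    obtain ⟨c, rfl⟩ := (Submodule.mem_span_range_iff_exists_fun k).1 (h2 ▸ hf)
    rw [Finset.sum_div]
    refine sum_mem fun j _ => ?_
    rw [smul_div_assoc, ← algebraMap_smul E]
    exact IntermediateField.smul_mem _ (div_mem_qf l i j)
  have h5 : H.sf ≤ (qf E l).restrictScalars k := IntermediateField.adjoin_le_iff.2 (by
    rintro _ ⟨f, hf, g, hg, rfl⟩
    rw [← div_div_div_cancel_right₀ (ne_of_val hi)]
    exact div_mem (h4 f hf) (h4 g hg))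
  exact h5 (h ▸ IntermediateField.mem_top)

/-- a bound for the rank in one large degree bounds the volume -/
theorem le_of_count (hA : HilStmt) [CharZero E] [Algebra.EssFiniteType E K] (hH : IsMod H)
    (h : H.sf = ⊤) {n c q : ℕ} (hc : 0 < c) (hn : dim E K ≤ n)
    (hq : (n + 1) * ((2 * (n + 1) * c) ^ n + 1) ≤ q)
    (h1 : FiniteDimensional E (Submodule.span E (sr H q)))
    (h2 : finrank E (Submodule.span E (sr H q)) ≤ (c * q) ^ dim E K) :
    bnum (replicate (dim E K) (up E H)) ≤ ((2 * (n + 1) * c : ℕ) : ℤ) ^ dim E K := by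
  obtain ⟨N, l, l1, l2, l3, l4⟩ := exists_gen_qf (E := E) hH.free h
  by_contra hc'
  have h3 : (2 * (n + 1) * c) ^ n + 1 ≤ q / (n + 1) :=
    (Nat.le_div_iff_mul_le n.succ_pos).2 (mul_comm (n + 1) _ ▸ hq)
  have h4 : (2 * (n + 1) * c) ^ dim E K ≤ (2 * (n + 1) * c) ^ n :=
    Nat.pow_le_pow_right (by positivity) hn
  have h5 := Nat.mul_div_le q (n + 1)
  have h6 := Nat.lt_mul_div_succ q n.succ_pos
  have h0 : 0 < q / (n + 1) := (Nat.succ_pos _).trans_le h3
  generalize q / (n + 1) = u at *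
  have h7 := (hA (ser_sr hH) (l := l) (by simpa [sr] using l1) l2 l4
    (δ := (2 * (n + 1) * c) ^ dim E K + 1) (u := u) (q := q) (by
      rw [← up_mxf (k := k), ← l3]
      exact_mod_cast not_le.1 hc') (by nlinarith) h1).trans h2
  have h8 : (c * q) ^ dim E K ≤ (2 * (n + 1) * c * u) ^ dim E K :=
    Nat.pow_le_pow_left (by
      rw [show 2 * (n + 1) * c * u = c * ((n + 1) * (2 * u)) by ring]
      exact Nat.mul_le_mul_left _ (h6.le.trans (Nat.mul_le_mul_left _ (by omega)))) _
  have h9 : 0 < u ^ dim E K := by positivity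
  rw [mul_pow (_ * c)] at h8
  nlinarith

/-- an abstract intermediate field gives the output -/
theorem volOut_of [CharZero E] [Algebra.EssFiniteType E K] {C : ℕ} (h1 : Reg E K)
    (h2 : 2 ≤ dim E K) (h3 : bnum (replicate (dim E K) (up E H)) ≤ (C : ℤ) ^ dim E K) :
    VolOut H C := by
  let M : IntermediateField k K := (IsScalarTower.toAlgHom k E K).fieldRange
  let e : E ≃ₐ[k] M := AlgEquiv.ofInjectiveField (IsScalarTower.toAlgHom k E K)
  letI : Algebra E M := e.toRingHom.toAlgebra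
  haveI : IsScalarTower E M K := IsScalarTower.of_algebraMap_eq fun _ => rfl
  haveI : IsScalarTower k E M := IsScalarTower.of_algebraMap_eq fun c => (e.commutes c).symm
  have hb : Function.Bijective (algebraMap E M) := e.bijective
  have h4 : finrank E M = 1 := by
    rw [← (LinearEquiv.ofBijective (Algebra.linearMap E M) hb).finrank_eq, finrank_self]
  haveI : Module.Finite E M := Module.finite_of_finrank_pos (h4 ▸ one_pos)
  haveI : Algebra.EssFiniteType E M := inferInstance
  have h5 : dim E K = dim M K := Loc.dim_fin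
  refine ⟨M, (Slope.reg_congr hb.2).1 h1, h5 ▸ h2, ?_⟩
  rwa [Loc.bnum_up_fin (K := M), h4, Nat.cast_one, one_mul, List.map_replicate, up_up, h5] at h3

theorem In.nsmul (h : In H r) {q : ℕ} (hq : 0 < q) : In (q • H) (q * r) where
  mod := h.mod.nsmul hq
  reg := h.reg
  pos := mul_pos hq h.pos
  can := by
    obtain ⟨n, b, f, h1, h2⟩ := h.can
    refine ⟨n, b, f ^ q, pow_ne_zero _ h1, fun V hV g hg => ?_⟩
    rw [map_pow, val_nsmul, mul_comm q, pow_mul, ← mul_pow, prm_nsmul h.mod.free hq]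
    exact ⟨pow_le_pow_left' (h2 V hV g hg).1 q, fun hP => by rw [(h2 V hV g hg).2 hP]⟩
  rho a := by
    obtain ⟨m, c, f, h1, h2, h3⟩ := h.rho a
    refine ⟨q * m, c, f ^ q, mul_pos hq h1, pow_ne_zero _ h2, fun V hV => ?_⟩
    rw [pr_pow h2, smul_comm c q, ← smul_add, mul_smul]
    exact h3.nsmul q V ((prm_nsmul h.mod.free hq).1 hV)

theorem VolOut.of_nsmul {q C : ℕ} (hq : 0 < q) (h : VolOut (q • H) (q * C)) : VolOut H C := by
  obtain ⟨M, h1, h2, h3⟩ := h
  refine ⟨M, h1, h2, ?_⟩
  have h4 := bnum_rep_nsmul q (up M H) (dim M K) []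
  rw [List.append_nil, List.append_nil] at h4
  rw [map_nsmul, h4, Nat.cast_mul, mul_pow] at h3
  exact le_of_mul_le_mul_left h3 (by positivity)

theorem count_of_noSec [CharZero E] [Algebra.EssFiniteType E K] {t m : ℕ}
    (h : NoSec E (sr H) t) (hm : 0 < m) : FiniteDimensional E (Submodule.span E (sr H m)) ∧
      finrank E (Submodule.span E (sr H m)) ≤ (t * m + dim E K).choose (dim E K) :=
  finrank_le_of_noSec (AlgHom.id E K) fun z hz hI =>
    h m hm z hz (Ideal.pow_le_pow_right (Nat.le_succ _) hI)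

theorem rank_pos (hH : IsMod H) {m : ℕ} (h : FiniteDimensional E (Submodule.span E (sr H m))) :
    0 < finrank E (Submodule.span E (sr H m)) := by
  obtain ⟨τ, h3, h4⟩ := (ser_sr hH).exists_ne m
  exact finrank_pos_iff_exists_ne_zero.2 ⟨⟨τ, Submodule.subset_span h3⟩, by simpa using h4⟩

/-- the case of a fibration in curves -/
theorem curve (hA : HilStmt) (hB : BetaStmt) (h : In H r) (hs : H.sf = ⊤) {n c : ℕ}
    (h2 : 2 ≤ dim k K) (hn : dim k K ≤ n) (M : Type) [Field M] [Algebra k M] [Algebra M K]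
    [IsScalarTower k M K] [CharZero M] [Algebra.EssFiniteType k M] [Algebra.EssFiniteType M K]
    (hM : Reg M K) (h1 : dim M K = 1) (hN : NoSec M (sr H) (c * r)) :
    VolOut H (2 * (n + 1) * ((2 ^ n * (n * n * (3 * (2 * c + 5)) + 1) + n + c + 1) * r)) := by
  have hr := h.pos
  have hc := fun m hm => count_of_noSec (m := m) hN hm
  simp only [h1, Nat.choose_one_right] at hc
  obtain ⟨m₀, hm₀⟩ := second hB h hM h1 h2 hn
  set C := (2 ^ n * (n * n * (3 * (2 * c + 5)) + 1) + n + c + 1) * r with hC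
  obtain ⟨p, hp, hρ⟩ := exists_double (ρ := fun m => finrank M (Submodule.span M (sr H m)))
    (fun m hm => rank_pos h.mod (hc m hm).1) (fun m hm => (hc m hm).2)
    (m₀ + (n + 1) * ((2 * (n + 1) * C) ^ n + 1))
  have hp0 : 0 < p := by omega
  obtain ⟨f1, r1⟩ := hc p hp0
  obtain ⟨f2, r2⟩ := hc (2 * p) (by omega)
  obtain ⟨b⟩ := exists_bas (M := M) (sr H p)
  obtain ⟨b₂⟩ := exists_bas (M := M) (sr H (2 * p))
  have hρ0 := rank_pos h.mod f1
  generalize finrank M (Submodule.span M (sr H p)) = ρ at *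
  generalize finrank M (Submodule.span M (sr H (2 * p))) = ρ₂ at *
  obtain ⟨Λ, E, e1, e2, e3, e4⟩ := hm₀ (2 * p) (by omega) b₂
  have hE : Slope.AC E K := fun g hg => by
    obtain ⟨x, rfl⟩ := Slope.ac_of_reg hM g (hg.tower_top M)
    obtain ⟨y, rfl⟩ := Slope.ac_of_reg e1 x
      ((isAlgebraic_algebraMap_iff (algebraMap M K).injective).1 hg)
    exact ⟨y, rfl⟩
  haveI := Slope.isDomain_of_ac hE M
  haveI : Algebra.EssFiniteType E K := Slope.eft_up k E K
  have e5 : dim E K = dim E M + 1 := h1 ▸ Loc.dim_tower E M K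
  have e6 : dim E K ≤ n := (Slope.dm_le k E K).trans hn
  obtain ⟨a1, a2⟩ := along (E := E) b b₂ (two_mul p ▸ (ser_sr h.mod).mul p p) e3
    (j := 2 ^ n * (n * n * (3 * (2 * (2 * p) * r + ρ₂)) + 1)) fun w hw hw' =>
    e4 w hw (Ideal.pow_le_pow_right (by
      refine le_trans ?_ (Nat.mul_le_mul_right _ (Nat.le_succ _))
      rw [mul_assoc (2 ^ n), add_mul, one_mul, mul_assoc (n * n), mul_right_comm 3]
      gcongr
      exact hρ0) hw')
  refine volOut_of (Slope.reg_of_ac hE) (by omega) (le_of_count hA h.mod hs (q := p)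
    (by positivity) e6 (by omega) a1 (a2.trans ?_))
  have hrp : 0 < r * p := mul_pos hr hp0
  have e7 : dm E M = dim E M := rfl
  rw [e5, pow_succ', e7]
  refine Nat.mul_le_mul (r1.trans ?_) ((Nat.choose_le_pow _ _).trans (Nat.pow_le_pow_left ?_ _))
  · rw [hC, mul_assoc _ r p, mul_assoc _ r p]
    generalize 2 ^ n * (n * n * (3 * (2 * c + 5)) + 1) + n = x
    nlinarith [Nat.zero_le (x * (r * p))]
  · have e8 : 2 * (2 * p) * r + ρ₂ ≤ (2 * c + 5) * (r * p) := by nlinarith
    have e9 : n * n * (3 * (2 * (2 * p) * r + ρ₂)) + 1 ≤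
        (n * n * (3 * (2 * c + 5)) + 1) * (r * p) := by
      rw [add_mul, one_mul, mul_assoc (n * n), mul_assoc 3]
      gcongr
      exact hrp
    have e10 := Nat.mul_le_mul_left (2 ^ n) e9
    have e11 : dim E M ≤ n * (r * p) := (by omega : dim E M ≤ n).trans
      (Nat.le_mul_of_pos_right _ hrp)
    rw [hC, mul_assoc _ r p, add_mul, add_mul, add_mul, mul_assoc (2 ^ n)]
    omega

theorem VolOut.mono {C C' : ℕ} (h : VolOut H C) (hC : C ≤ C') : VolOut H C' := by
  obtain ⟨M, h1, h2, h3⟩ := h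
  exact ⟨M, h1, h2, h3.trans (pow_le_pow_left₀ (by positivity) (by exact_mod_cast hC) _)⟩

/-- **the volume bound** -/
theorem vol_of (hA : HilStmt) (hB : BetaStmt) (n : ℕ) : Vol n := by
  obtain ⟨c, hc⟩ : ∃ c, c = 2 ^ n * ((n + 1) * n + 1) := ⟨_, rfl⟩
  refine ⟨2 * (n + 1) * (2 ^ n * (n * n * (3 * (2 * c + 5)) + 1) + n + c + 1),
    fun {k K} _ _ _ _ _ H r h h2 hn => ?_⟩
  wlog hs : H.sf = ⊤ generalizing H r
  · obtain ⟨q, hq, -, h3⟩ := h.mod.big.exists_alg
    refine VolOut.of_nsmul hq ?_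
    rw [mul_left_comm]
    exact this _ _ (h.nsmul hq) h3
  obtain ⟨F, f1, f2, f3⟩ := h.gap (by omega) hn
  rw [← hc, mul_assoc] at *
  obtain f4 | f4 : dim F K = 1 ∨ 2 ≤ dim F K := by omega
  · exact curve hA hB h hs h2 hn F f1 f4 f3
  have hr := h.pos
  have f5 : dim F K ≤ n := (Slope.dm_le k F K).trans hn
  obtain ⟨q, hq⟩ : ∃ q, q = (n + 1) * ((2 * (n + 1) * ((c + n + 1) * r)) ^ n + 1) := ⟨_, rfl⟩
  have hq0 : 0 < q := hq ▸ by positivity
  obtain ⟨g1, g2⟩ := count_of_noSec f3 hq0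
  refine VolOut.mono (C := 2 * (n + 1) * ((c + n + 1) * r)) ⟨F, f1, f4, le_of_count hA h.mod hs
    (by positivity) f5 hq.ge g1 (g2.trans ((Nat.choose_le_pow _ _).trans
      (Nat.pow_le_pow_left ?_ _)))⟩
    (Nat.mul_le_mul_left _ (Nat.mul_le_mul_right _ (by omega)))
  have hrq : 0 < r * q := mul_pos hr hq0
  have := f5.trans (Nat.le_mul_of_pos_right n hrq)
  rw [mul_assoc, mul_assoc, add_mul, add_mul]
  omega

end Crest.Agent.X262.Vol77
end
end

-- ▼ part X262/Wr72/Hil0
section

/-!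
# Row 262, Wr72 (helper72), part 3: algebra for the uniform Hilbert bound

* `exists_li_pow`   : independent elements of small degree in a finite extension;
* `card_le_finrank` : the count in a graded family of subspaces;
* `dv`, `exists_poly_of_val` : the degree valuation of a rational function field.
-/

set_option autoImplicit false

noncomputable section

namespace Crest.Agent.X262.Wr72

open Module MvPolynomial WithZero
open scoped Pointwise

section Deg

variable {M K : Type*} [Field M] [Field K] [Algebra M K] [FiniteDimensional M K] {T : Set K}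

theorem min_le_finrank (h1 : (1 : K) ∈ T) (hT : Algebra.adjoin M T = ⊤) (i : ℕ) :
    min (i + 1) (finrank M K) ≤ finrank M (Submodule.span M (T ^ i)) := by
  induction i with
  | zero =>
    refine (min_le_left _ _).trans ?_
    rw [pow_zero, ← Set.singleton_one, finrank_span_singleton one_ne_zero]
  | succ i ih =>
    have hle : Submodule.span M (T ^ i) ≤ Submodule.span M (T ^ (i + 1)) :=
      Submodule.span_mono fun x hx => by
        rw [pow_succ]
        exact ⟨x, hx, 1, h1, mul_one x⟩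
    rcases hle.eq_or_lt with h | h
    · have h2 : ∀ x ∈ Algebra.adjoin M T, ∀ y ∈ Submodule.span M (T ^ i),
          x * y ∈ Submodule.span M (T ^ i) := by
        intro x hx
        induction hx using Algebra.adjoin_induction with
        | mem x hx =>
          intro y hy
          rw [h, pow_succ', ← Submodule.span_mul_span]
          exact Submodule.mul_mem_mul (Submodule.subset_span hx) hy
        | algebraMap c => exact fun y hy => by rw [← Algebra.smul_def]; exact Submodule.smul_mem _ _ hy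
        | add x x' _ _ hx hx' => exact fun y hy => by rw [add_mul]; exact add_mem (hx y hy) (hx' y hy)
        | mul x x' _ _ hx hx' => exact fun y hy => by rw [mul_assoc]; exact hx _ (hx' y hy)
      have h3 : Submodule.span M (T ^ i) = ⊤ := eq_top_iff.2 fun x _ => by
        simpa using h2 x (hT ▸ Algebra.mem_top) 1 (Submodule.subset_span (Set.one_mem_pow h1))
      rw [← h, h3, finrank_top]
      exact min_le_right _ _
    · have := Submodule.finrank_lt_finrank_of_lt h
      omega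

/-- independent elements of small degree -/
theorem exists_li_pow (h1 : (1 : K) ∈ T) (hT : Algebra.adjoin M T = ⊤) {δ : ℕ}
    (hδ : δ ≤ finrank M K) : ∃ b : Fin δ → K, (∀ i, b i ∈ T ^ δ) ∧ LinearIndependent M b := by
  obtain ⟨κ, a, -, hs, hl⟩ := exists_linearIndependent' M (fun x : (T ^ δ : Set K) => (x : K))
  have : Finite κ := hl.finite
  have := Fintype.ofFinite κ
  have h2 := finrank_span_eq_card hl
  rw [hs, Subtype.range_coe] at h2
  have h3 := min_le_finrank h1 hT δ
  obtain ⟨e⟩ := Function.Embedding.nonempty_of_card_le (α := Fin δ) (β := κ) (by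
    rw [Fintype.card_fin]
    omega)
  exact ⟨fun i => a (e i), fun i => (a (e i)).2, hl.comp e e.injective⟩

end Deg

theorem li_mon {R S ι : Type*} [Field R] [Field S] [Algebra R S] [Fintype ι] {y : ι → S}
    (hy : AlgebraicIndependent R y) (m : ℕ) :
    LinearIndependent R fun β : ι → Fin m => ∏ i, y i ^ (β i : ℕ) := by
  have h := ((MvPolynomial.basisMonomials ι R).linearIndependent.map'
    (MvPolynomial.aeval y).toLinearMap (LinearMap.ker_eq_bot.2 hy)).comp
    (fun β : ι → Fin m => Finsupp.equivFunOnFinite.symm fun i => (β i : ℕ))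
    fun β β' h => funext fun i => Fin.ext (congrFun (Finsupp.equivFunOnFinite.symm.injective h) i)
  refine (congrArg (fun v => LinearIndependent R v) (funext fun β => ?_)).mp h
  simp [MvPolynomial.aeval_monomial, Finsupp.prod_fintype]

/-- the count -/
theorem card_le_finrank {E M K ι : Type*} [Field E] [Field M] [Field K] [Algebra E M] [Algebra M K]
    [Algebra E K] [IsScalarTower E M K] [FiniteDimensional M K] [Fintype ι] {S : ℕ → Submodule E K}
    (S0 : (1 : K) ∈ S 0) (hS : ∀ a b, ∀ x ∈ S a, ∀ y ∈ S b, x * y ∈ S (a + b)) {t : K} (ht : t ≠ 0)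
    {T : Set K} (h1 : (1 : K) ∈ T) (hT : Algebra.adjoin M T = ⊤) (h2 : ∀ x ∈ T, t * x ∈ S 1)
    {y : ι → M} (hy : AlgebraicIndependent E y) (h3 : ∀ i, t * algebraMap M K (y i) ∈ S 1)
    {δ u q : ℕ} (hδ : δ ≤ finrank M K) (hq : δ + Fintype.card ι * u ≤ q)
    [FiniteDimensional E (S q)] : δ * u ^ Fintype.card ι ≤ finrank E (S q) := by
  classical
  obtain ⟨b, hb, hl⟩ := exists_li_pow h1 hT hδ
  have G0 : t ^ 0 * 1 ∈ S 0 := by simpa using S0
  have Gm : ∀ {i j : ℕ} {x y : K}, t ^ i * x ∈ S i → t ^ j * y ∈ S j →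
      t ^ (i + j) * (x * y) ∈ S (i + j) := fun {i j x y} hx hy => by
    rw [pow_add, mul_mul_mul_comm]
    exact hS _ _ _ hx _ hy
  have Gp : ∀ {x : K}, t * x ∈ S 1 → ∀ i, t ^ i * x ^ i ∈ S i := fun {x} hx i => by
    induction i with
    | zero => simpa using S0
    | succ i ih => rw [pow_succ x]; exact Gm ih (by rwa [pow_one])
  have Gl : ∀ {i j : ℕ} {x : K}, i ≤ j → t ^ i * x ∈ S i → t ^ j * x ∈ S j := fun {i j x} h hx => by
    obtain ⟨l, rfl⟩ := Nat.exists_eq_add_of_le h
    simpa using Gm hx (Gp (h2 1 h1) l)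
  have GT : ∀ i, ∀ x ∈ T ^ i, t ^ i * x ∈ S i := fun i => by
    induction i with
    | zero => rintro x rfl; exact G0
    | succ i ih =>
      rw [pow_succ T]
      rintro _ ⟨x, hx, y, hy, rfl⟩
      exact Gm (ih x hx) (by rw [pow_one]; exact h2 y hy)
  have GP : ∀ (β : ι → Fin u) (s : Finset ι), t ^ (s.card * u) *
      ∏ i ∈ s, algebraMap M K (y i) ^ (β i : ℕ) ∈ S (s.card * u) := fun β s => by
    induction s using Finset.induction_on with
    | empty => simpa using S0
    | insert i s hi ih =>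
      rw [Finset.prod_insert hi, Finset.card_insert_of_notMem hi, add_mul, one_mul, add_comm]
      exact Gm (Gl (β i).2.le (Gp (h3 i) _)) ih
  have h4 := (linearIndependent_smul (li_mon hy u) hl).map' (LinearMap.mulLeft E (t ^ q))
    (LinearMap.ker_eq_bot.2 (mul_right_injective₀ (pow_ne_zero q ht)))
  have h5 : ∀ p : (ι → Fin u) × Fin δ, t ^ q * ((∏ i, y i ^ (p.1 i : ℕ)) • b p.2) ∈ S q := fun p => by
    rw [Algebra.smul_def, map_prod]
    simp only [map_pow]
    exact Gl (by rw [Finset.card_univ]; omega) (Gm (GP p.1 Finset.univ) (GT δ _ (hb p.2)))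
  have h6 := (LinearIndependent.of_comp (Submodule.subtype _)
    (v := fun p => (⟨_, h5 p⟩ : S q)) h4).fintype_card_le_finrank
  simpa [mul_comm] using h6

section Val

variable (σ k : Type*) [Field k]

open Classical in
/-- the degree valuation -/
def dv : Valuation (MvPolynomial σ k) ℤᵐ⁰ where
  toFun p := if p = 0 then 0 else exp (p.totalDegree : ℤ)
  map_zero' := by simp
  map_one' := by simp
  map_mul' p q := by
    by_cases hp : p = 0
    · simp [hp]
    by_cases hq : q = 0
    · simp [hq]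
    rw [if_neg (mul_ne_zero hp hq), if_neg hp, if_neg hq, totalDegree_mul_of_isDomain hp hq,
      Nat.cast_add, exp_add]
  map_add_le_max' p q := by
    by_cases hp : p = 0
    · simp [hp]
    by_cases hq : q = 0
    · simp [hq]
    rw [if_neg hp, if_neg hq]
    split_ifs
    · exact zero_le
    · rcases le_max_iff.1 (totalDegree_add p q) with h | h
      · exact le_max_of_le_left (exp_le_exp.2 (by exact_mod_cast h))
      · exact le_max_of_le_right (exp_le_exp.2 (by exact_mod_cast h))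

variable {σ k}

theorem dv_of_ne {p : MvPolynomial σ k} (hp : p ≠ 0) : dv σ k p = exp (p.totalDegree : ℤ) :=
  if_neg hp

theorem dv_le {p : MvPolynomial σ k} {m : ℕ} : dv σ k p ≤ exp (m : ℤ) ↔ p.totalDegree ≤ m := by
  by_cases hp : p = 0
  · simp [hp]
  · rw [dv_of_ne hp, exp_le_exp, Nat.cast_le]

/-- a rational function which is integral over the polynomials and has a pole of order at most `m`
at infinity is a polynomial of degree at most `m` -/
theorem exists_poly_of_val {F : Type*} [Field F] [Algebra k F] {x : σ → F}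
    (hx : AlgebraicIndependent k x) (hF : IntermediateField.adjoin k (Set.range x) = ⊤) {g : F}
    (h1 : IsIntegral (aeval x : MvPolynomial σ k →ₐ[k] F).range g) {m : ℕ}
    (h2 : ∀ v : Valuation F ℤᵐ⁰, (∀ c, v (algebraMap k F c) ≤ 1) → (∀ j, v (x j) ≤ exp 1) →
      v g ≤ exp (m : ℤ)) : ∃ p : MvPolynomial σ k, p.totalDegree ≤ m ∧ aeval x p = g := by
  let A := MvPolynomial σ k
  let φ : A →ₐ[k] F := aeval x
  let _ : Algebra A F := φ.toAlgebra
  have : FaithfulSMul A F := (faithfulSMul_iff_algebraMap_injective A F).2 hx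
  have : IsFractionRing A F := IsFractionRing.of_field A F fun z =>
    (IntermediateField.mem_adjoin_range_iff k x z).1 (hF ▸ IntermediateField.mem_top)
  let _ : Algebra A φ.range := φ.rangeRestrict.toAlgebra
  have : IsScalarTower A φ.range F := IsScalarTower.of_algebraMap_eq fun _ => rfl
  have : Algebra.IsIntegral A φ.range := Algebra.isIntegral_of_surjective φ.rangeRestrict_surjective
  obtain ⟨p, hp⟩ := IsIntegrallyClosed.algebraMap_eq_of_integral (isIntegral_trans (R := A) g h1)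
  have hS : nonZeroDivisors A ≤ (dv σ k).supp.primeCompl := fun a ha h0 => by
    have h3 : dv σ k a = 0 := h0
    rw [dv_of_ne (nonZeroDivisors.ne_zero ha)] at h3
    exact exp_ne_zero h3
  have h3 : ∀ a : A, (dv σ k).extendToLocalization hS F (aeval x a) = dv σ k a :=
    (dv σ k).extendToLocalization_apply_map_apply hS F
  refine ⟨p, dv_le.1 ?_, hp⟩
  rw [← h3]
  refine hp ▸ h2 _ (fun c => ?_) fun j => ?_
  · rw [← aeval_C x, h3]
    exact (dv_le (m := 0)).2 (totalDegree_C c).le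
  · rw [← aeval_X (R := k) x j, h3]
    exact (dv_le (m := 1)).2 (totalDegree_X j).le

end Val

end Crest.Agent.X262.Wr72
end
end

-- ▼ part X262/Wr72/Hil
section

/-!
# Row 262, Wr72 (helper72), part 4: the uniform Hilbert bound

* `sec_pn`, `finrank_pn`, `bnum_pn_le` : sections and degree of the hyperplane class of `P^d`;
* `Mdl.bnum_le` : the degree of a model is at most the degree of the map to `P^d`;
* `hil : Vol77.HilStmt`.
-/

set_option autoImplicit false
set_option linter.unusedSectionVars false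

noncomputable section

namespace Crest.Agent.X262.Wr72

open Module MvPolynomial WithZero Filter Topology
open Crest.Agent.X277 Crest.Agent.X277.BD Crest.Agent.X277.Jet Crest.Agent.X277.Cns
open List (replicate)

variable {k F : Type} [Field k] [Field F] [Algebra k F] {d : ℕ}

/-- sections of multiples of the hyperplane class of projective space -/
theorem sec_pn {x : Fin d → F} (hx : AlgebraicIndependent k x)
    (hF : IntermediateField.adjoin k (Set.range x) = ⊤) {m : ℕ} {g : F}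
    (hg : g ∈ (m • mxf k (Fin.cons 1 x : Fin (d + 1) → F)).Sec) :
    ∃ p : MvPolynomial (Fin d) k, p.totalDegree ≤ m ∧ aeval x p = g := by
  have h : ∀ V : RZ k F, ∃ j, V.v g ≤ V.v ((Fin.cons 1 x : Fin (d + 1) → F) j ^ m) := fun V => by
    obtain ⟨j, hj⟩ := exists_val_mxf (k := k) (s := (Fin.cons 1 x : Fin (d + 1) → F))
      ⟨0, one_ne_zero⟩ V
    exact ⟨j, by rw [map_pow, hj, ← val_nsmul]; exact hg V⟩
  refine exists_poly_of_val hx hF (isIntegral_of_val fun V hV => ?_) fun v hv h1 => ?_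
  · obtain ⟨j, hj⟩ := h ⟨V, KV.of_le hV⟩
    refine (RZ.le_one_iff (V := ⟨V, KV.of_le hV⟩)).1 (hj.trans (RZ.le_one_iff.2 (pow_mem ?_ m)))
    exact Fin.cases (one_mem _) (fun j => hV _ ⟨X j, aeval_X x j⟩) j
  · obtain ⟨j, hj⟩ := h (rz v hv)
    rw [v_rz_le_iff, map_pow] at hj
    refine hj.trans ((pow_le_pow_left' (b := exp (1 : ℤ)) ?_ m).trans (by simp [← exp_nsmul]))
    refine Fin.cases ?_ h1 j
    rw [Fin.cons_zero, map_one, ← exp_zero, exp_le_exp]
    exact zero_le_one

theorem finrank_pn {x : Fin d → F} (hx : AlgebraicIndependent k x)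
    (hF : IntermediateField.adjoin k (Set.range x) = ⊤) (m : ℕ) :
    finrank k (m • mxf k (Fin.cons 1 x : Fin (d + 1) → F)).Sec ≤ (m + d).choose d := by
  have h1 : (m • mxf k (Fin.cons 1 x : Fin (d + 1) → F)).Sec ≤ Submodule.span k
      (Set.range fun β : Le (Fin d) m => aeval x (monomial β.1 (1 : k))) := fun g hg => by
    obtain ⟨p, hp, rfl⟩ := sec_pn hx hF hg
    rw [p.as_sum, map_sum]
    refine Submodule.sum_mem _ fun β hβ => ?_
    rw [← mul_one (coeff β p), ← smul_eq_mul, ← smul_monomial, map_smul]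
    exact Submodule.smul_mem _ _ (Submodule.subset_span
      ⟨⟨β, mem_Le.2 ((le_totalDegree hβ).trans hp)⟩, rfl⟩)
  have := Module.Finite.span_of_finite k
    (Set.finite_range fun β : Le (Fin d) m => aeval x (monomial β.1 (1 : k)))
  refine (Submodule.finrank_mono h1).trans ((finrank_range_le_card _).trans ?_)
  rw [Fintype.card_coe, card_Le, Fintype.card_fin]

variable [CharZero k] [Algebra.EssFiniteType k F]

/-- the degree of projective space -/
theorem bnum_pn_le {x : Fin d → F} (hx : AlgebraicIndependent k x)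
    (hF : IntermediateField.adjoin k (Set.range x) = ⊤) (hd : dim k F = d) :
    bnum (replicate d (mxf k (Fin.cons 1 x : Fin (d + 1) → F))) ≤ 1 := by
  have h1 := (free_mxf (k := k) (Fin.cons 1 x : Fin (d + 1) → F)).nef.tendsto 0
  have h2 : Tendsto (fun m : ℕ => (1 + (d : ℝ) / m) ^ d) atTop (𝓝 ((1 + 0) ^ d)) :=
    (tendsto_const_nhds.add (tendsto_const_div_atTop_nhds_zero_nat _)).pow d
  have h3 := le_of_tendsto_of_tendsto h1 h2 ((eventually_gt_atTop 0).mono fun m hm => by
    have h0 : (0 : ℝ) < m := by exact_mod_cast hm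
    have h4 : d.factorial * finrank k (m • mxf k (Fin.cons 1 x : Fin (d + 1) → F)).Sec ≤
        (m + d) ^ d := by
      refine (Nat.mul_le_mul_left _ (finrank_pn hx hF m)).trans ?_
      rw [← Nat.descFactorial_eq_factorial_mul_choose]
      exact Nat.descFactorial_le_pow _ _
    change nh 0 _ m ≤ (1 + (d : ℝ) / m) ^ d
    rw [nh, zero_add, hd, div_le_iff₀ (pow_pos h0 d), ← mul_pow, add_mul, div_mul_cancel₀ _ h0.ne', one_mul]
    exact_mod_cast h4)
  rw [hd, add_zero, one_pow] at h3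
  exact_mod_cast h3

theorem qf_eq {ι : Type*} (t : ι → F) {i : ι} (hi : t i ≠ 0) :
    qf k t = IntermediateField.adjoin k (Set.range fun j => t j / t i) := by
  refine le_antisymm (IntermediateField.adjoin_le_iff.2 ?_) (IntermediateField.adjoin_le_iff.2 ?_)
  · rintro _ ⟨l, j, rfl⟩
    rw [← div_div_div_cancel_right₀ hi]
    exact div_mem (IntermediateField.subset_adjoin _ _ ⟨j, rfl⟩)
      (IntermediateField.subset_adjoin _ _ ⟨l, rfl⟩)
  · rintro _ ⟨j, rfl⟩
    exact div_mem_qf t i j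

/-- the affine coordinates of a model, in the field of the projective space -/
def xx (M : Mdl k F) (j : Fin (dim k F)) : qf k M.t := ⟨M.t j.succ / M.t 0, div_mem_qf _ _ _⟩

theorem qf_eq_xx (M : Mdl k F) :
    qf k M.t = IntermediateField.adjoin k (Set.range fun j => (xx M j : F)) := by
  refine (qf_eq M.t (M.c.t_ne 0)).trans
    (le_antisymm (IntermediateField.adjoin_le_iff.2 ?_) (IntermediateField.adjoin.mono _ _ _ ?_))
  · rintro _ ⟨j, rfl⟩
    refine Fin.cases ?_ (fun j => IntermediateField.subset_adjoin _ _ ⟨j, rfl⟩) j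
    simp [M.c.t_ne 0]
  · rintro _ ⟨j, rfl⟩
    exact ⟨j.succ, rfl⟩

theorem adjoin_xx (M : Mdl k F) : IntermediateField.adjoin k (Set.range (xx M)) = ⊤ := by
  refine IntermediateField.map_injective (qf k M.t).val ?_
  rw [IntermediateField.adjoin_map, ← Set.range_comp, ← AlgHom.fieldRange_eq_map,
    IntermediateField.fieldRange_val]
  exact (qf_eq_xx M).symm

theorem ai_xx (M : Mdl k F) : AlgebraicIndependent k (xx M) := by
  have := M.fin
  have h1 : Algebra.IsAlgebraic (IntermediateField.adjoin k (Set.range fun j => (xx M j : F))) F := by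
    rw [← qf_eq_xx]
    infer_instance
  have h2 := IntermediateField.isAlgebraic_adjoin_iff_top.1 h1
  have h3 := (Algebra.IsAlgebraic.isTranscendenceBasis_of_lift_le_trdeg_of_finite k
    (fun j => (xx M j : F)) (by rw [trdeg_eq_dim]; simp)).1
  exact AlgebraicIndependent.of_comp (qf k M.t).val h3

theorem forall₂_rep {α : Type*} {r : α → α → Prop} {a b : α} (h : r a b) (n : ℕ) :
    List.Forall₂ r (replicate n a) (replicate n b) := by
  induction n with
  | zero => exact List.Forall₂.nil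
  | succ n ih => exact List.Forall₂.cons h ih

/-- the degree of a model is at most the degree of the map to projective space -/
theorem Mdl.bnum_le (M : Mdl k F) : bnum (replicate (dim k F) M.H) ≤ finrank (qf k M.t) F := by
  have := M.fin
  have : Algebra.EssFiniteType k (qf k M.t) := by
    rw [IntermediateField.essFiniteType_iff, qf_eq_xx]
    exact IntermediateField.fg_adjoin_of_finite (Set.finite_range _)
  let α := IsScalarTower.toAlgHom k (qf k M.t) F
  have h0 : deg α = finrank (qf k M.t) F := deg_tower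
  have hd : dim k (qf k M.t) = dim k F :=
    ((deg_pos_iff α).1 (h0 ▸ Module.finrank_pos)).symm
  have h1 : Lin M.H (pb α (mxf k (Fin.cons 1 (xx M) : Fin (dim k F + 1) → qf k M.t))) := by
    have h2 : (fun i => α ((Fin.cons 1 (xx M) : Fin (dim k F + 1) → qf k M.t) i)) =
        fun i => M.t i / M.t 0 := funext fun i =>
      Fin.cases (by simp [M.c.t_ne 0]) (fun _ => rfl) i
    rw [pb_mxf, h2]
    refine ⟨M.t 0, M.c.t_ne 0, (eq_mxf (fun i V => ?_) fun V => ?_).symm⟩
    · rw [val_add, val_pr (M.c.t_ne 0), ← div_le_iff₀ (RZ.pos (M.c.t_ne 0)), ← map_div₀]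
      exact mem_Sec_mxf (k := k) (fun i => M.t i / M.t 0) i V
    · obtain ⟨i, hi⟩ := exists_val_mxf (k := k) (s := fun i => M.t i / M.t 0)
        ⟨0, by simp [M.c.t_ne 0]⟩ V
      exact ⟨i, by rw [val_add, val_pr (M.c.t_ne 0), ← hi, ← map_mul,
        div_mul_cancel₀ _ (M.c.t_ne 0)]⟩
  have h3 := bnum_congr (forall₂_rep h1 (dim k F)) []
  rw [List.append_nil, List.append_nil, ← List.map_replicate (f := BD.pb α), bnum_pb, h0] at h3
  rw [h3]
  exact mul_le_of_le_one_right (by positivity) (bnum_pn_le (ai_xx M) (adjoin_xx M) hd)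

omit [CharZero k] [Algebra.EssFiniteType k F] in
theorem adjoin_top (L : IntermediateField k F) [FiniteDimensional L F] {t : F} (ht : t ≠ 0)
    {ι : Type*} {l : ι → F} (hq : qf k l = ⊤) :
    Algebra.adjoin L (insert 1 (Set.range fun j => l j / t)) = ⊤ := by
  have h1 : Algebra.IsAlgebraic L F := Algebra.IsAlgebraic.of_finite _ _
  rw [← IntermediateField.adjoin_toSubalgebra_of_isAlgebraic fun x _ => h1.isAlgebraic x]
  obtain ⟨S, hS⟩ : ∃ S, S = IntermediateField.adjoin L (insert 1 (Set.range fun j => l j / t)) :=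
    ⟨_, rfl⟩
  have h2 : ∀ j, l j / t ∈ S := fun j =>
    hS ▸ IntermediateField.subset_adjoin _ _ (Set.mem_insert_of_mem _ (Set.mem_range_self j))
  rw [← hS]
  have h3 : qf k l ≤ S.restrictScalars k := by
    refine IntermediateField.adjoin_le_iff.2 ?_
    rintro _ ⟨i, j, rfl⟩
    rw [SetLike.mem_coe, IntermediateField.mem_restrictScalars, ← div_div_div_cancel_right₀ ht]
    exact div_mem (h2 j) (h2 i)
  refine eq_top_iff.2 fun x _ => ?_
  have h4 : x ∈ qf k l := by rw [hq]; exact IntermediateField.mem_top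
  exact (IntermediateField.mem_restrictScalars k).1 (h3 h4)

omit [CharZero k] [Algebra.EssFiniteType k F] in
theorem span_mul_mem {U : ℕ → Set F} (hU : Gj.Ser U) (a b : ℕ) :
    ∀ x ∈ Submodule.span k (U a), ∀ y ∈ Submodule.span k (U b),
      x * y ∈ Submodule.span k (U (a + b)) := fun x hx y hy => by
  have := Submodule.mul_mem_mul hx hy
  rw [Submodule.span_mul_span] at this
  refine Submodule.span_mono ?_ this
  rintro _ ⟨v, hv, w, hw, rfl⟩
  exact hU.mul a b v hv w hw

/-- **uniform lower bound for the Hilbert function** -/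
theorem hil : Vol77.HilStmt := by
  intro E K _ _ _ _ _ U hU N l hl h0 hq δ u q hδ hle hfin
  have ha : Algebra.IsAlgebraic (mxf E l).sf K := ⟨fun x =>
    isAlgebraic_algebraMap (⟨x, qf_le_sf l (by rw [hq]; exact IntermediateField.mem_top)⟩ :
      (mxf E l).sf)⟩
  obtain ⟨M, hM, ht⟩ := exists_mdl_of (h := mxf E l) (mem_Sec_mxf l) (exists_val_mxf h0) ha
  have := M.fin
  have h1 : ∀ j, M.t j ∈ Submodule.span E (U 1) := fun j =>
    Submodule.span_mono (Set.range_subset_iff.2 hl) (ht j)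
  have t0 : M.t 0 ≠ 0 := M.c.t_ne 0
  have h2 : ∀ x ∈ insert 1 (Set.range fun j => l j / M.t 0), M.t 0 * x ∈ Submodule.span E (U 1) := by
    rintro _ (rfl | ⟨j, rfl⟩)
    · rw [mul_one]
      exact h1 0
    · rw [mul_div_cancel₀ _ t0]
      exact Submodule.subset_span (hl j)
  have h3 : ∀ i, M.t 0 * algebraMap (qf E M.t) K (xx M i) ∈ Submodule.span E (U 1) := fun i => by
    change M.t 0 * (M.t i.succ / M.t 0) ∈ _
    rw [mul_div_cancel₀ _ t0]
    exact h1 _
  have h4 : δ ≤ finrank (qf E M.t) K := by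
    have h5 := Mdl.bnum_le M
    rw [hM] at h5
    exact_mod_cast hδ.trans h5
  have h6 := card_le_finrank (S := fun q => Submodule.span E (U q)) (Submodule.subset_span hU.one)
    (span_mul_mem hU) t0 (Set.mem_insert _ _) (adjoin_top _ t0 hq) h2 (ai_xx M) h3 (u := u) (q := q)
    h4 (by rwa [Fintype.card_fin])
  rwa [Fintype.card_fin] at h6

end Crest.Agent.X262.Wr72
end
end

-- ▼ part X262/R1/Main

/-!
# Row 262, R1 (helper3): the canonical class of a fibration by curves on a model of rank one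

`E ≤ M ≤ F`, `F / M` a curve, `δ` a derivation of `F / M`.

* `deg_ge`     : the degree of a bound of `r K_δ` on the generic fibre;
* `deg_le`     : the degree of a class below `r' K` on the generic fibre;
* `exists_exc` : on a model of rank one some place of the generic fibre is exceptional;
* `r1_deg`, `r1` : `K_δ ≥ K / 2` in degree.
-/

set_option autoImplicit false
set_option linter.unusedSectionVars false

noncomputable section

namespace Crest.Agent.X262.R1

open Crest.Agent.X277 Crest.Agent.X277.BD Crest.Agent.X277.Pst Crest.Agent.X277.Neg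
  Crest.Agent.X262.Mod Crest.Agent.X262.Loc WithZero Crest.Agent.R276.FKDefs_779
  Crest.Agent.R276.DivVal_858 Crest.Agent.R013 Module

universe u

section Jac

variable {E F : Type*} [Field E] [Field F] [Algebra E F] {n : ℕ} (Z : Jet.Fr E F (Fin n))
  (b : Basis (Fin n) F Ω[F⁄E])

theorem jc_update (i : Fin n) (u : F) : Z.jc (Function.update Z.y i u) = Z.D i u := by
  have h : (Matrix.of fun k j => Z.D k (Function.update Z.y i u j)) =
      (1 : Matrix _ _ F).updateCol i fun k => Z.D k u := by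
    ext k j
    rw [Matrix.of_apply, Matrix.updateCol_apply]
    split_ifs with h
    · rw [h, Function.update_self]
    · rw [Function.update_of_ne h, Z.dual, Matrix.one_apply]
  rw [Jet.Fr.jc, h, ← Matrix.cramer_apply, Matrix.cramer_one]
  rfl

theorem jac_basis : jac E b Z.y = b.det Z.basis := by
  rw [jac, show ⇑Z.basis = _ from funext Z.basis_apply]

theorem jac_chain (z : Fin n → F) : jac E b z = jac E b Z.y * Z.jc z := by
  rw [Z.jc_eq_det, jac_basis]
  exact DFunLike.congr_fun (b.det.eq_smul_basis_det Z.basis) _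

theorem jac_ne : jac E b Z.y ≠ 0 := by
  rw [jac_basis]
  exact (b.isUnit_det Z.basis).ne_zero

end Jac

variable {E M F : Type u} [Field E] [Field M] [Field F] [Algebra E M] [Algebra M F] [Algebra E F]
  [IsScalarTower E M F] [CharZero E] [CharZero M] [Algebra.EssFiniteType E F]
  [Algebra.EssFiniteType M F] {H a κ : BD E F} {δ : Derivation M F F} {r r' : ℕ} {P : Pt M F}
  {π : F}

theorem isNv_pt (P : Pt M F) : IsNv ((rzP P).dn E) P.v :=
  ⟨(RR12_948.exists_v_eq P (-1)).imp fun _ h => h.2, fun _ _ => rzP_le_iff.symm⟩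

theorem le_ordP_up {f : F} : P.v f ≤ exp (ordP P (up M a)) ↔
    ((rzP P).dn E).v f ≤ a.val ((rzP P).dn E) := by
  rw [le_ordP_iff, val_up]
  rfl

variable (hd : dim M F = 1)
include hd

theorem dvs_pt (P : Pt M F) : Dvs ((rzP P).dn E) := by
  refine dvs_dn.2 (dvs_iff.2 ⟨rzP_ne_top P, ?_⟩)
  rw [show Gj.dm M F = 1 from hd]
  exact le_add_self

theorem cst_le_degP (P : Pt M F) : (cst M F : ℤ) ≤ RR8_948.degP P := by
  have h := cst_dvd [dvB hd (Finsupp.single P 1)]
  rw [bnum_dvB_single, one_mul] at h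
  exact Int.le_of_dvd (by exact_mod_cast degP_pos' hd P) h

theorem ord_exc (hδ : δ ≠ 0) (h : KF H (δ.restrictScalars E) r a) (hH : IsMod H) (ha : Car H a)
    (hr : 0 < r) (hP : ¬ Prm H ((rzP P).dn E)) :
    r * (ordP P (kC δ) + 1) ≤ ordP P (up M a) := by
  obtain ⟨π, -, hπ⟩ := RR12_948.exists_v_eq P (-1)
  have h1 := v_der_unif hd hδ hπ
  have h2 := h.exc_le' hH ha hr (dvs_pt hd P) hP (isNv_pt P) hπ
    (fun x hx => rzP_le_iff.2 (h1 ▸ v_der_le hd hδ hx)) fun h0 => exp_ne_zero (by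
      rw [← h1, show δ π = 0 from h0, map_zero])
  rw [← map_pow, ← le_ordP_up, map_pow, map_div₀, Derivation.restrictScalars_apply, h1, hπ,
    ← exp_sub, ← exp_nsmul, exp_le_exp] at h2
  simpa using h2

theorem ord_ge (hδ : δ ≠ 0) (h : KF H (δ.restrictScalars E) r a) (hH : IsMod H) (ha : Car H a)
    (hr : 0 < r) (P : Pt M F) : r * ordP P (kC δ) ≤ ordP P (up M a) := by
  by_cases hP : Prm H ((rzP P).dn E)
  · obtain ⟨π, -, hπ⟩ := RR12_948.exists_v_eq P (-1)
    have h2 := h.prm_le (π := π) hP (mem_rzP.2 (hπ ▸ (exp_le_exp.2 (by omega)).trans_eq exp_zero))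
    rw [← map_pow, ← le_ordP_up, map_pow, Derivation.restrictScalars_apply, v_der_unif hd hδ hπ,
      ← exp_nsmul, exp_le_exp] at h2
    simpa using h2
  · have h1 := ord_exc hd hδ h hH ha hr hP
    rw [mul_add] at h1
    omega

/-- the degree of a bound of the canonical class of `δ` -/
theorem deg_ge (hδ : δ ≠ 0) (h : KF H (δ.restrictScalars E) r a) (hH : IsMod H) (ha : Car H a)
    (hr : 0 < r) (hP : ¬ Prm H ((rzP P).dn E)) :
    r * (bnum [kC δ] + cst M F) ≤ bnum [up M a] := by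
  have h1 : r • kC δ ≤ up M a := (le_iff_ordP hd).2 fun Q => by
    simpa using ord_ge hd hδ h hH ha hr Q
  have h2 := ordP_le_deg hd (sub_nonneg.2 h1) P
  have h3 := ord_exc hd hδ h hH ha hr hP
  have h4 := cst_le_degP hd P
  rw [bnum_sub, bnum_nsmul, map_sub, map_nsmul, nsmul_eq_mul] at h2
  have h5 : (0 : ℤ) ≤ cst M F := Nat.cast_nonneg _
  have h6 : (0 : ℤ) ≤ r := Nat.cast_nonneg _
  nlinarith [mul_le_mul (show (r : ℤ) ≤ ordP P (up M a) - r * ordP P (kC δ) by linarith) h4 h5
    (by linarith)]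

/-- adjunction on the generic fibre -/
theorem exists_adj (hδ : δ ≠ 0) {n : ℕ} (b : Basis (Fin n) F Ω[F⁄E]) : ∃ f : F, f ≠ 0 ∧
    ∀ (P : Pt M F) (z : Fin n → F), (∀ i, P.v (z i) ≤ 1) →
      P.v (jac E b z) ≤ exp (ordP P (kC δ + pr M f)) := by
  obtain ⟨m, hm, h1⟩ := Slope.exists_codim E M F
  have h2 : n = m + 1 := by
    have h3 := finrank_eq_card_basis b
    rw [Fintype.card_fin] at h3
    rw [← h3, ← show Gj.dm M F = 1 from hd, h1]
    rfl
  subst h2
  have h3 : Algebra.trdeg E F = (m + 1 : ℕ) := by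
    rw [trdeg_dm, ← h1, show Gj.dm M F = 1 from hd]
  obtain ⟨y, hy⟩ := exists_fin_basis E M hm
  let x : Fin m → F := fun i => algebraMap M F (y i)
  have key : ∀ (P : Pt M F) (π : F), P.v π = exp (-1) → ∃ Z : Jet.Fr E F (Fin (m + 1)),
      Z.y = Fin.cons π x ∧ Z.At (Cns.kSub ((rzP P).dn E).2) := fun P π hπ => by
    refine Jet.at_of_unif h3 _ ⟨fun i => (rzP P).2 _, fun p hp => ?_⟩ ⟨?_, ?_, fun t ht => ?_⟩
    · rw [show MvPolynomial.aeval x p = algebraMap M F (MvPolynomial.aeval y p) from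
        MvPolynomial.aeval_algebraMap_apply F y p]
      exact (rzP P).v_alg fun h => hp (algebraicIndependent_iff.1 hy.1 p h)
    · exact (isNv_pt (E := E) P).lt_one.1 (hπ ▸ (exp_lt_exp.2 (by omega)).trans_eq exp_zero)
    · rintro rfl
      exact exp_ne_zero (hπ.symm.trans (map_zero _))
    · exact rzP_le_iff.2 (hπ ▸ (RR2_948.lt_one_iff _).1 ((isNv_pt (E := E) P).lt_one.2 ht))
  obtain ⟨P₀, -⟩ := exists_pt hd ∅
  obtain ⟨π₀, -, hπ₀⟩ := RR12_948.exists_v_eq P₀ (-1)
  obtain ⟨Z₀, h4, -⟩ := key P₀ π₀ hπ₀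
  have h5 : δ π₀ ≠ 0 := fun h0 => exp_ne_zero (by rw [← v_der_unif hd hδ hπ₀, h0, map_zero])
  have h6 := div_ne_zero (jac_ne Z₀ b) h5
  refine ⟨_, h6, fun P z hz => ?_⟩
  obtain ⟨π, -, hπ⟩ := RR12_948.exists_v_eq P (-1)
  obtain ⟨Z, h7, h8⟩ := key P π hπ
  have h9 : δ π₀ = δ π * Z.D 0 π₀ := by
    have h := Z.expand (δ.restrictScalars E) π₀
    rw [Fin.sum_univ_succ, h7] at h
    simpa [x] using h
  have h10 : jac E b Z₀.y = jac E b Z.y * Z.D 0 π₀ := by
    rw [← jc_update, ← jac_chain, h4, h7, Fin.update_cons_zero]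
  have h11 : jac E b Z.y = δ π * (jac E b Z₀.y / δ π₀) := by
    rw [h10, ← mul_div_assoc, eq_div_iff h5, h9]
    ring
  rw [map_add, exp_add, exp_ordP_pr h6, ← v_der_unif hd hδ hπ, ← map_mul, ← h11, jac_chain Z,
    map_mul]
  exact mul_le_of_le_one_right' (mem_rzP.1 (h8.jc_mem hz))

/-- the degree of a class below the canonical class -/
theorem deg_le (hδ : δ ≠ 0) {n : ℕ} {b : Basis (Fin n) F Ω[F⁄E]}
    (hκ : ∀ V : RZ E F, Dvs V → ∃ z, (∀ i, z i ∈ V.1) ∧ κ.val V ≤ V.v (jac E b z) ^ r') :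
    bnum [up M κ] ≤ r' * bnum [kC δ] := by
  obtain ⟨f, hf, h1⟩ := exists_adj hd hδ b
  have h2 : up M κ ≤ r' • (kC δ + pr M f) := (le_iff_ordP hd).2 fun P => by
    obtain ⟨z, h2, h3⟩ := hκ _ (dvs_pt hd P)
    rw [ordP_le_iff, val_up, val_nsmul]
    exact h3.trans (pow_le_pow_left' (le_ordP_iff.1 (h1 P z h2)) r')
  have h3 := (eff_sub_of_le h2).bnum_nonneg (l := []) (by simp)
  rw [bnum_sub, bnum_nsmul, bnum_add, bnum_pr] at h3
  linarith

theorem deg_up (c : ℤ) (f : F) : bnum [up M (c • H + pr E f)] = c * bnum [up M H] := by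
  rw [map_add, map_zsmul, up_pr, bnum_add, bnum_zsmul, bnum_pr, add_zero]

/-- on a model of rank one some place of the generic fibre is exceptional -/
theorem exists_exc (hH : IsMod H) (hM : Algebra.Transcendental E M)
    (hρ : ∀ x : BD E F, ∃ (m : ℕ) (c : ℤ) (f : F), 0 < m ∧ f ≠ 0 ∧
      EqOn H (m • x) (c • H + pr E f)) : ∃ P : Pt M F, ¬ Prm H ((rzP P).dn E) := by
  by_contra hc
  push Not at hc
  obtain ⟨t, ht⟩ := hM.transcendental
  have ht0 : t ≠ 0 := fun h => ht (h ▸ isAlgebraic_zero)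
  obtain ⟨m, c, f, hm, hf, h1⟩ := hρ (mxf E ![1, algebraMap M F t])
  have h2 := (((car_self hH.free).zsmul c).add (car_pr f)).le_of_free hH ((free_mxf _).nsmul m)
    h1.le
  have h3 : up M (c • H + pr E f) = 0 := ext' fun W => by
    rcases rz_cases hd W with rfl | ⟨P, rfl⟩
    · rw [val_top, val_top]
    obtain ⟨i, hi⟩ := exists_val_mxf (k := E) (s := ![1, algebraMap M F t]) ⟨0, by simp⟩
      ((rzP P).dn E)
    rw [val_up, ← h1 _ (hc P), val_nsmul, ← hi, val_zero]
    have h3 : ∀ i, ((rzP P).dn E).v (![1, algebraMap M F t] i) = 1 :=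
      Fin.forall_fin_two.2 ⟨map_one _, (rzP P).v_alg ht0⟩
    rw [h3, one_pow]
    rfl
  have h4 := deg_up hd (H := H) c f
  have h5 := (big_iff_deg hd).1 (hH.big.up (K := M))
  rw [h3, bnum_zero] at h4
  obtain rfl : c = 0 := by
    rcases mul_eq_zero.1 h4.symm with h | h
    exacts [h, absurd h h5.ne']
  rw [zero_smul, zero_add] at h2
  have h6 : ∀ i, IsAlgebraic E (![1, algebraMap M F t] i ^ m / f) := fun i => by
    have h6 : ![1, algebraMap M F t] i ^ m / f ∈ (0 : BD E F).Sec := fun V => by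
      rw [val_zero, map_div₀, div_le_one₀ (RZ.pos hf), ← val_pr hf]
      exact (pow_mem_Sec (mem_Sec_mxf _ i) m V).trans (h2 V)
    rw [Sec_zero] at h6
    exact mem_algebraicClosure_iff.1 h6
  have h7 := (h6 1).mul (h6 0).inv
  refine ht ((isAlgebraic_algebraMap_iff (algebraMap M F).injective).1 (IsAlgebraic.of_pow hm ?_))
  simpa [hf] using h7

/-- **R1**, degrees on the generic fibre -/
theorem r1_deg (hδ : δ ≠ 0) (hH : IsMod H) (hP : ¬ Prm H ((rzP P).dn E)) (ha : Car H a)
    (hr : 0 < r) (h : KF H (δ.restrictScalars E) r a) {n : ℕ} {b : Basis (Fin n) F Ω[F⁄E]}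
    (hκ : ∀ V : RZ E F, Dvs V → ∃ z, (∀ i, z i ∈ V.1) ∧ κ.val V ≤ V.v (jac E b z) ^ r') :
    r * bnum [up M κ] ≤ 2 * r' * bnum [up M a] := by
  have h1 := mul_le_mul_of_nonneg_left (deg_ge hd hδ h hH ha hr hP) (Nat.cast_nonneg (α := ℤ) r')
  have h2 := mul_le_mul_of_nonneg_left (deg_le hd hδ hκ) (Nat.cast_nonneg (α := ℤ) r)
  have h3 := mul_le_mul_of_nonneg_left (deg_kC_ge hd hδ) (Nat.cast_nonneg (α := ℤ) (r * r'))
  push_cast at h3
  linarith

/-- **R1**: `r K_δ ≤ c H`, `c' H ≤ r' K` imply `c' / r' ≤ 2 c / r` -/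
theorem r1 (hδ : δ ≠ 0) (hH : IsMod H) (hM : Algebra.Transcendental E M)
    (hρ : ∀ x : BD E F, ∃ (m : ℕ) (c : ℤ) (f : F), 0 < m ∧ f ≠ 0 ∧
      EqOn H (m • x) (c • H + pr E f)) {c c' : ℤ} {f f' : F} (hr : 0 < r)
    (h : KF H (δ.restrictScalars E) r (c • H + pr E f)) {n : ℕ} {b : Basis (Fin n) F Ω[F⁄E]}
    (hκ : ∀ V : RZ E F, Dvs V → ∃ z, (∀ i, z i ∈ V.1) ∧
      (c' • H + pr E f').val V ≤ V.v (jac E b z) ^ r') : r * c' ≤ 2 * r' * c := by
  obtain ⟨P, hP⟩ := exists_exc hd hH hM hρ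
  have h1 := r1_deg hd hδ hH hP (((car_self hH.free).zsmul c).add (car_pr f)) hr h hκ
  rw [deg_up hd, deg_up hd, ← mul_assoc, ← mul_assoc] at h1
  exact le_of_mul_le_mul_right h1 ((big_iff_deg hd).1 (hH.big.up (K := M)))

end Crest.Agent.X262.R1
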