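import Crest.Agent.X262.R1.Main_Mg
import Crest.Agent.X262.Wr72.Val
import Crest.Agent.X262.Mod79.QP

-- ▼ part X262/R1/Tr
section

/-!
# Row 262, R1 (helper3): Weil divisors on a model as traces, the classes of a curve fibration

* `exists_tr`  : a finitely supported family of values on the primes is the trace of a b-divisor;
* `exists_kv'` : the canonical value at a divisorial valuation, for any basis;
* `exists_psi_phi` : the ramified canonical class `ψ` of the base, and `φ = K - ψ`.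
-/

set_option autoImplicit false
set_option linter.unusedSectionVars false

noncomputable section

namespace Crest.Agent.X262.R1

open Crest.Agent.X277 Crest.Agent.X277.BD Crest.Agent.X277.Pst Crest.Agent.X277.Jet
  Crest.Agent.X262.Mod Crest.Agent.X262.Wr72 Module

universe u

variable {k K : Type u} [Field k] [Field K] [Algebra k K] [CharZero k] [Algebra.EssFiniteType k K]
  {H : BD k K}

/-- Weil divisors on a model are traces of b-divisors -/
theorem exists_tr (hH : IsMod H) (g : ∀ P : RZ k K, P.1.ValueGroup)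
    (h0 : ∀ P, Prm H P → g P ≠ 0) (hf : {P | Prm H P ∧ g P ≠ 1}.Finite) :
    ∃ a : BD k K, ∀ P, Prm H P → a.val P = g P := by
  classical
  choose s _ h1 h2 using hH.exists_single
  choose x hx using fun P : RZ k K => P.exists_v (g P)
  have hT : {G : DV k K | Prm H G.1 ∧ g G.1 ≠ 1}.Finite :=
    hf.preimage Subtype.val_injective.injOn
  refine ⟨∑ G ∈ hT.toFinset, od G (pr k (x G.1)) • s G, fun P hP => ?_⟩
  have h3 : x P ≠ 0 := RZ.ne_zero_iff.1 (hx P ▸ h0 P hP)
  have key : od ⟨P, hP.dvs⟩ (∑ G ∈ hT.toFinset, od G (pr k (x G.1)) • s G) =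
      od ⟨P, hP.dvs⟩ (pr k (x P)) := by
    rw [map_sum, Finset.sum_eq_single ⟨P, hP.dvs⟩]
    · rw [map_zsmul, h1, smul_eq_mul, mul_one]
    · intro G _ hG
      rw [map_zsmul, h2 G _ hP hG.symm, smul_zero]
    · intro hV
      have h4 : g P = 1 := by
        by_contra h
        exact hV (hT.mem_toFinset.2 ⟨hP, h⟩)
      have h5 : od ⟨P, hP.dvs⟩ (pr k (x P)) = 0 := by
        rw [← Int.cast_eq_zero (α := ℚ), ← tr_apply, tr_eq_zero_at, val_pr h3, hx, h4]
      rw [map_zsmul, h5, zero_smul]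
  rw [← hx, ← val_pr h3]
  exact le_antisymm (od_le_iff.1 key.le) (od_le_iff.1 key.ge)

theorem isDiv_v {V : RZ k K} (hV : Dvs V) :
    R276.FKDefs_779.IsDiv k (Gj.dm k K) V.v.valuationSubring := by
  rwa [ValuationSubring.valuationSubring_valuation]

theorem exists_kv' {ι : Type*} [Fintype ι] [DecidableEq ι] (b : Basis ι K Ω[K⁄k]) {V : RZ k K}
    (hV : Dvs V) : ∃ g, Kv V.v b g := by
  obtain ⟨X⟩ := exists_fr k K
  obtain ⟨Z, hZ, -⟩ := exists_fAt X (isDiv_v hV)
  let e := Fintype.equivFinOfCardEq (finrank_eq_card_basis b).symm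
  have h : FAt V.v (Z.reindex e) := ⟨fun i => hZ.1 (e i), fun i => hZ.2 (e i)⟩
  exact ⟨_, (h.kv (Z.reindex e)).change b⟩

theorem eft_dn (k M K : Type*) [Field k] [Field M] [Field K] [Algebra k M] [Algebra M K]
    [Algebra k K] [IsScalarTower k M K] [Algebra.EssFiniteType k K] : Algebra.EssFiniteType k M :=
  (Algebra.EssFiniteType.iff_of_algEquiv
    (AlgEquiv.ofInjectiveField (IsScalarTower.toAlgHom k M K))).2
    (R273.FG_259.essFiniteType_of_le (IsScalarTower.toAlgHom k M K).fieldRange)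

variable {M : Type u} [Field M] [Algebra k M] [Algebra M K] [IsScalarTower k M K]

theorem exists_psi_phi (hH : IsMod H) {n r : ℕ} {Z : Fr M K (Fin 1)} {Y : Fr k M (Fin n)}
    {X : Fr k K (Fin 1 ⊕ Fin n)} (hX : Tow X Z Y) {h : K} (h0 : h ≠ 0) (hr : 0 < r)
    (hc : ∀ P, Prm H P → ∀ g, Kv P.v X.basis g → P.v h = g ^ r * H.val P) : ∃ ψ φ : BD k K,
      (∀ P, Prm H P → Kv (P.v.comap (algebraMap M K)) Y.basis (ψ.val P)) ∧
      (∀ P, Prm H P → ∀ f ∈ P.1, P.v (Z.D 0 f) ≤ φ.val P) ∧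
      EqOn H (r • (φ + ψ)) (pr k h - H) := by
  classical
  have := eft_dn k M K
  have e1 : ∀ P : RZ k K, ∃ g, Prm H P → Kv P.v X.basis g := fun P => by
    by_cases hP : Prm H P
    · exact (exists_kv' X.basis hP.dvs).imp fun _ h _ => h
    · exact ⟨1, fun h => absurd h hP⟩
  have e2 : ∀ P : RZ k K, ∃ g, Prm H P → Kv (P.v.comap (algebraMap M K)) Y.basis g := fun P => by
    by_cases hP : Prm H P
    · exact (exists_kv_res (trdeg_dm k K) Y (isDiv_v hP.dvs)).imp fun _ h _ => h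
    · exact ⟨1, fun h => absurd h hP⟩
  choose gK hK using e1
  choose gM hM using e2
  have h1 : ∀ P, Prm H P → (pr k h - H).val P = gK P ^ r := fun P hP => by
    rw [val_sub, val_pr h0, hc P hP _ (hK P hP), mul_div_cancel_right₀ _ (H.val_ne P)]
  have f1 : {P | Prm H P ∧ gK P ≠ 1}.Finite := (hH.fin_val (pr k h - H)).subset fun P hP =>
    ⟨hP.1, fun h2 => hP.2 ((pow_eq_one_iff_left hr.ne').1 ((h1 P hP.1).symm.trans h2))⟩
  have f2 : {P | Prm H P ∧ gM P ≠ 1}.Finite := by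
    refine ((f1.union (fin_not_mem hH.free hH.bir (Z.y 0))).union (Set.finite_iUnion fun i =>
      fin_not_mem hH.free hH.bir (algebraMap M K (Y.y i)))).subset fun P hP => ?_
    by_contra hn
    simp only [Set.mem_union, Set.mem_iUnion, Set.mem_ofPred_eq, hP.1, true_and, not_or, not_exists,
      not_not] at hn
    have h2 := hX.pres_one (hK P hP.1) (hM P hP.1) (RZ.le_one_iff.2 hn.1.2)
    have h3 := (hM P hP.1).2 Y.y fun i => RZ.le_one_iff.2 (hn.2 i)
    rw [jb_basis, Y.jc_self, map_one] at h3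
    rw [Z.dual, if_pos (Subsingleton.elim _ _), map_one, one_mul, hn.1.1] at h2
    exact hP.2 (le_antisymm h2 h3)
  obtain ⟨κ, hκ⟩ := exists_tr hH gK (fun P hP => (hK P hP).ne) f1
  obtain ⟨ψ, hψ⟩ := exists_tr hH gM (fun P hP => (hM P hP).ne) f2
  refine ⟨ψ, κ - ψ, fun P hP => hψ P hP ▸ hM P hP, fun P hP f hf => ?_, fun P hP => ?_⟩
  · rw [val_sub, hκ P hP, hψ P hP, le_div_iff₀ (zero_lt_iff.2 (hM P hP).ne)]
    exact hX.pres_one (hK P hP) (hM P hP) (RZ.le_one_iff.2 hf)
  · rw [sub_add_cancel, val_nsmul, hκ P hP, h1 P hP]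

end Crest.Agent.X262.R1
end
end

-- ▼ part X262/R1/Beta

/-!
# Row 262, R1 (helper3): the classes of a fibration in curves (`Vol77.BetaStmt`)
-/

set_option autoImplicit false

noncomputable section

namespace Crest.Agent.X262.R1

open Crest.Agent.X277 Crest.Agent.X277.BD Crest.Agent.X277.Pst Crest.Agent.X277.Jet
  Crest.Agent.X262.Mod Crest.Agent.X262.Wr72 Crest.Agent.X262.Vol77 Module

theorem beta : BetaStmt := by
  intro k M K _ _ _ _ _ _ _ _ _ H r hI _ Z n Y
  have := Slope.cz_up k M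
  have := Slope.eft_up k M K
  obtain ⟨X, hX⟩ := exists_tower Z Y
  obtain ⟨h, h0, h1⟩ := hI.can' X.basis
  obtain ⟨ψ, φ, h2, h3, h4⟩ := exists_psi_phi hI.mod hX h0 hI.pos fun P hP g hg =>
    (h1 P hP.dvs g hg).2 hP
  obtain ⟨d, hd⟩ := hI.deg ψ
  have hr : (0 : ℚ) < r := Nat.cast_pos.2 hI.pos
  have h5 : Deg H φ (-d - 1 / r) := by
    have h5 : Deg H (φ + ψ) (-1 / r) := Deg.of_nsmul hI.pos (by
      rw [mul_div_cancel₀ _ hr.ne', ← zero_sub]
      exact ((deg_pr h).sub deg_self).congr h4)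
    have h6 := h5.sub hd
    rw [add_sub_cancel_right] at h6
    convert h6 using 1
    ring
  refine ⟨ψ, φ, -d, h2, h3, by rwa [neg_neg], h5, ?_⟩
  obtain ⟨m, c, f, hm, -, hc, h6⟩ := h5
  obtain ⟨N, b, h', h7, h8⟩ := hI.can
  have h9 := r1 (E := k) (δ := Z.D 0) (r' := r) (c := c) (c' := -1) (f := f) (f' := h') (b := b)
    (Z.card_eq.symm.trans (Fintype.card_fin 1))
    (fun h => zero_ne_one ((DFunLike.congr_fun h (Z.y 0)).symm.trans (by simpa using Z.dual 0 0)))
    hI.mod ⟨_, Y.ai.transcendental 0⟩ hI.rho hm (fun W hW => ⟨φ.gen W, φ.gen_ne W,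
      fun x hx => (h3 W hW x hx).trans_eq (φ.v_gen W).symm, by
        rw [← h6 W hW, val_nsmul, φ.v_gen]⟩) fun V hV => by
      obtain ⟨g, hg⟩ := exists_kv' b hV
      obtain ⟨z, hz, rfl⟩ := hg.1
      refine ⟨z, fun i => RZ.le_one_iff.1 (hz i), ?_⟩
      rw [neg_smul, one_smul, neg_add_eq_sub, val_sub, val_pr h7, div_le_iff₀ (H.val_pos V),
        ← jb_eq_jac]
      exact (h8 V hV _ hg).1
  have h10 : (m : ℚ) * -1 ≤ 2 * r * c := by exact_mod_cast h9
  have h11 : (0 : ℚ) < m := Nat.cast_pos.2 hm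
  rw [hc, show 2 * (r : ℚ) * (m * (-d - 1 / r)) = m * (2 * r * -d - 2) by field_simp] at h10
  linarith [le_of_mul_le_mul_left h10 h11]

end Crest.Agent.X262.R1
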